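import Crest.Agent.X262.Vb.Cfg

/-!
# Row 262, road B (helper22): node algebra, definitions

* `pair z₁ z₂` : disjoint union of configurations; `jn z q q'` : the sections whose values at the
  projectively equal points `q, q'` agree;
* `wg a b`, `dl`, `da` : the minors cutting out the diagonal, and their lines;
* `TP`, `TY` : tangent spaces of the ambient space and of the target, inside the space of minors;
* `EE` : the obstruction space of the system (equations at all points, diagonal at `q, q'`).
-/

set_option autoImplicit false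
set_option linter.unusedSectionVars false

noncomputable section

namespace Crest.Agent.X262.Node22

open Crest.Agent.X277 Crest.Agent.X277.BD Crest.Agent.X262.Vb

variable {J : Type} [Fintype J] [DecidableEq J] {io : J → Type} [∀ j, Fintype (io j)]
  [∀ j, DecidableEq (io j)] {A : Type} [Fintype A] {E : Type} [Field E] [Algebra ℂ E]
  {I I₁ I₂ : Type} [Fintype I] [Fintype I₁] [Fintype I₂]

/-- a point as a vector indexed by the variables -/
def vec (y : Pnt io E) : Vr io → E := fun v => y v.1 v.2

/-- rescaling of homogeneous coordinates -/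
def scl (c : J → E) (y : Pnt io E) : Pnt io E := fun j i => c j * y j i

/-- the character `c ↦ c ^ κ` -/
def chr (c : J → E) (κ : J → ℕ) : E := ∏ j, c j ^ κ j

/-- the same point of the product of projective spaces -/
def Par (y y' : Pnt io E) : Prop := ∃ c : J → E, (∀ j, c j ≠ 0) ∧ y = scl c y'

/-- the dimension of the ambient space -/
def dimP (io : J → Type) [∀ j, Fintype (io j)] : ℕ := ∑ j, (Fintype.card (io j) - 1)

/-- disjoint union of two configurations -/
def pair (z₁ : Cfg io I₁ E) (z₂ : Cfg io I₂ E) : Cfg io (I₁ ⊕ I₂) E where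
  y := Sum.elim z₁.y z₂.y
  V κ := (z₁.V κ).comap (LinearMap.funLeft E E Sum.inl) ⊓
    (z₂.V κ).comap (LinearMap.funLeft E E Sum.inr)

/-- the vectors whose values at `q` and `q'` agree -/
def agr (y : I → Pnt io E) (q q' : I) (κ : J → ℕ) : Submodule E (I → E) where
  carrier := {σ | ∀ c : J → E, y q = scl c (y q') → σ q = chr c κ * σ q'}
  add_mem' ha hb c hc := by simp only [Pi.add_apply, ha c hc, hb c hc, mul_add]
  zero_mem' c _ := by simp
  smul_mem' t σ h c hc := by simp only [Pi.smul_apply, h c hc, smul_eq_mul, mul_left_comm]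

/-- gluing of the points `q` and `q'` -/
def jn (z : Cfg io I E) (q q' : I) : Cfg io I E where
  y := z.y
  V κ := z.V κ ⊓ agr z.y q q' κ

/-- index set of the `2 × 2` minors -/
abbrev Dg (io : J → Type) : Type := Σ j, io j × io j

/-- the `2 × 2` minors of two vectors, factor by factor -/
def wg : (Vr io → E) →ₗ[E] (Vr io → E) →ₗ[E] (Dg io → E) :=
  LinearMap.mk₂ E (fun a b x => a ⟨x.1, x.2.1⟩ * b ⟨x.1, x.2.2⟩ - a ⟨x.1, x.2.2⟩ * b ⟨x.1, x.2.1⟩)
    (fun _ _ _ => funext fun _ => by simp only [Pi.add_apply]; ring)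
    (fun _ _ _ => funext fun _ => by simp only [Pi.smul_apply, smul_eq_mul]; ring)
    (fun _ _ _ => funext fun _ => by simp only [Pi.add_apply]; ring)
    (fun _ _ _ => funext fun _ => by simp only [Pi.smul_apply, smul_eq_mul]; ring)

theorem wg_apply (a b : Vr io → E) (x : Dg io) :
    wg a b x = a ⟨x.1, x.2.1⟩ * b ⟨x.1, x.2.2⟩ - a ⟨x.1, x.2.2⟩ * b ⟨x.1, x.2.1⟩ := rfl

/-- the section cutting out the diagonal -/
def dl (y y' : Pnt io E) : Dg io → E := wg (vec y) (vec y')

/-- the lines of the minors -/
def da (y y' : Pnt io E) : Dg io → BD ℂ E := fun x => ln y x.1 + ln y' x.1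

/-- the differential of `dl` -/
def dd (y y' : Pnt io E) : ((Vr io → E) × (Vr io → E)) →ₗ[E] (Dg io → E) :=
  (wg.flip (vec y')).coprod (wg (vec y))

/-- the tangent space of the ambient space (normal space of the diagonal) -/
def TP (y y' : Pnt io E) : Submodule E (Dg io → E) := LinearMap.range (dd y y')

/-- the tangent space of the target -/
def TY (T : Tgt io A) (y y' : Pnt io E) : Submodule E (Dg io → E) :=
  ((LinearMap.ker (T.jac y)).prod (LinearMap.ker (T.jac y'))).map (dd y y')

/-- the section of the system (equations at all points, diagonal at `q, q'`) -/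
def sd (T : Tgt io A) (z : Cfg io I E) (q q' : I) : (A × I) ⊕ Dg io → E :=
  Sum.elim (z.sv T) (dl (z.y q) (z.y q'))

/-- its twisting lines -/
def ed (T : Tgt io A) (z : Cfg io I E) (q q' : I) : (A × I) ⊕ Dg io → BD ℂ E :=
  Sum.elim (z.ea T) (da (z.y q) (z.y q'))

/-- the obstruction space of the system (equations at all points, diagonal at `q, q'`) -/
def EE (T : Tgt io A) (z : Cfg io I E) (q q' : I) : Submodule E ((A × I) ⊕ Dg io → E) where
  carrier := {u | (fun x => u (Sum.inl x)) ∈ z.Eb T ∧ ∃ a b : Vr io → E,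
    (fun α => u (Sum.inl (α, q))) = T.jac (z.y q) a ∧
    (fun α => u (Sum.inl (α, q'))) = T.jac (z.y q') b ∧
    (fun x => u (Sum.inr x)) = dd (z.y q) (z.y q') (a, b)}
  add_mem' := by
    rintro u u' ⟨h, a, b, h1, h2, h3⟩ ⟨h', a', b', h1', h2', h3'⟩
    refine ⟨add_mem h h', a + a', b + b', ?_, ?_, ?_⟩
    · rw [map_add, ← h1, ← h1']; rfl
    · rw [map_add, ← h2, ← h2']; rfl
    · rw [← Prod.mk_add_mk, map_add, ← h3, ← h3']; rfl
  zero_mem' := ⟨zero_mem _, 0, 0, (map_zero _).symm, (map_zero _).symm, (map_zero _).symm⟩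
  smul_mem' := by
    rintro t u ⟨h, a, b, h1, h2, h3⟩
    refine ⟨Submodule.smul_mem _ t h, t • a, t • b, ?_, ?_, ?_⟩
    · rw [map_smul, ← h1]; rfl
    · rw [map_smul, ← h2]; rfl
    · rw [← Prod.smul_mk, map_smul, ← h3]; rfl

/-- first projection of a space of functions on a sum -/
abbrev pl (E P Q : Type) [Field E] : (P ⊕ Q → E) →ₗ[E] (P → E) := LinearMap.funLeft E E Sum.inl

/-- second projection -/
abbrev pr' (E P Q : Type) [Field E] : (P ⊕ Q → E) →ₗ[E] (Q → E) := LinearMap.funLeft E E Sum.inr

/-- extension by zero from the first summand -/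
def il (E P Q : Type) [Field E] : (P → E) →ₗ[E] (P ⊕ Q → E) where
  toFun u := Sum.elim u 0
  map_add' _ _ := by funext x; rcases x with x | x <;> simp
  map_smul' _ _ := by funext x; rcases x with x | x <;> simp

/-- extension by zero from the second summand -/
def ir (E P Q : Type) [Field E] : (Q → E) →ₗ[E] (P ⊕ Q → E) where
  toFun u := Sum.elim 0 u
  map_add' _ _ := by funext x; rcases x with x | x <;> simp
  map_smul' _ _ := by funext x; rcases x with x | x <;> simp

end Crest.Agent.X262.Node22
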