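import Crest.Agent.X262.Node22.Gau
import Crest.Agent.X262.Vb.Vir

/-!
# Row 262, road B (helper22): node algebra, Chern polynomials

* `cp_TY` : the tangent space of the target inside the minors has Chern polynomial `cT`;
* `cp_node` : the two filtrations of `EE`;
* `cpz_pair`, `dv_pair`, `Rk.pair` : disjoint unions;
* `eval_dir` : the normalised reduction of a section gives a root of the Chern polynomial.
-/

set_option autoImplicit false
set_option linter.unusedSectionVars false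

noncomputable section

namespace Crest.Agent.X262.Node22

open Crest.Agent.X277 Crest.Agent.X277.BD Crest.Agent.X277.Pst Crest.Agent.X277.BD.Cyc
open Crest.Agent.X262.Vb Crest.Agent.X262.Hb Polynomial Module

variable {J : Type} [Fintype J] [DecidableEq J] {io : J → Type} [∀ j, Fintype (io j)]
  [∀ j, DecidableEq (io j)] {A : Type} [Fintype A] {E E' : Type} [Field E] [Algebra ℂ E]
  [Field E'] [Algebra ℂ E'] {I I₁ I₂ : Type} [Fintype I] [Fintype I₁] [Fintype I₂]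

/-! ### lattices -/

section Lat

variable {P Q : Type} [Fintype P] [Fintype Q] {V : RZ ℂ E}

theorem nm_zero_le {x : P → E} : nm (fun _ => (0 : BD ℂ E)) V x ≤ 1 ↔ ∀ i, x i ∈ V.1 := by
  simp only [nm_le, val_zero, mul_one, RZ.le_one_iff]

theorem nm_le_one {a : P → BD ℂ E} {c x : P → E} (hc : ∀ i, V.v (c i) = ((a i).val V)⁻¹) :
    nm a V x ≤ 1 ↔ ∀ i, c i * x i ∈ V.1 := by
  refine nm_le.trans (forall_congr' fun i => ?_)
  rw [← RZ.le_one_iff, map_mul, hc, inv_mul_le_one₀ (val_pos _ _), one_mul]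

theorem exists_lift (V : RZ ℂ E) (a : P → Rf V) :
    ∃ x : P → E, (∀ i, x i ∈ V.1) ∧ rv (plV V) x = a := by
  choose x hx using fun i => surj_plV V (a i)
  exact ⟨fun i => x i, fun i => (x i).2, _root_.funext fun i => ((plV V).r_coe (x i)).trans (hx i)⟩

/-- Nakayama -/
theorem int_onto (V : RZ ℂ E) {U : Submodule E (P → E)} {φ : (P → E) →ₗ[E] (Q → E)}
    (h1 : ∀ x ∈ U, (∀ i, x i ∈ V.1) → ∀ i, φ x i ∈ V.1) {N : Submodule (Rf V) (Q → Rf V)}
    (h2 : ∀ n ∈ N, ∃ x ∈ U, (∀ i, x i ∈ V.1) ∧ n = rv (plV V) (φ x))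
    (hr : finrank E (U.map φ) ≤ finrank (Rf V) N) {x : P → E} (hx : x ∈ U)
    (hi : ∀ i, φ x i ∈ V.1) : ∃ u ∈ U, φ u = φ x ∧ ∀ i, u i ∈ V.1 := by
  obtain ⟨u, hu, e, h⟩ := sur_of_rank (p := LP.at V) (a := fun _ => 0) (a' := fun _ => 0)
    (g := fun _ => 1) (U := U) (φ := φ) (fun i => map_one _)
    (fun x hx => nm_le_of_one (fun x hx h => nm_zero_le.2 (h1 x hx (nm_zero_le.1 h))) hx)
    (hr.trans (Submodule.finrank_mono fun n hn => by
      obtain ⟨x, hx, hi, rfl⟩ := h2 n hn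
      exact Submodule.subset_span ⟨x, hx, nm_zero_le.2 hi, by simp only [div_one]; rfl⟩)) hx
  exact ⟨u, hu, e, nm_zero_le.1 (h.trans (nm_zero_le.2 hi))⟩

/-- a coordinate projection is onto on lattices if it is so after a gauge transformation -/
theorem ont_funLeft {a : P → BD ℂ E} {g : Q → P} {U : Submodule E (P → E)}
    (h : ∀ V : RZ ℂ E, ∃ c : P → E, (∀ i, V.v (c i) = ((a i).val V)⁻¹) ∧
      ∀ x ∈ sclS c U, (∀ i, x (g i) ∈ V.1) →
        ∃ z ∈ sclS c U, (∀ i, z (g i) = x (g i)) ∧ ∀ i, z i ∈ V.1) :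
    Ont a (fun i => a (g i)) (LinearMap.funLeft E E g) U := by
  refine Ont.of_one (fun V x _ hx => (nm_funLeft_le g x).trans hx) fun V x hx h1 => ?_
  obtain ⟨c, hc, h⟩ := h V
  obtain ⟨_, hz, h2, h3⟩ := h _ (mem_sclS.2 ⟨x, hx, rfl⟩) ((nm_le_one fun i => hc (g i)).1 h1)
  obtain ⟨z, hz', rfl⟩ := mem_sclS.1 hz
  refine ⟨z, hz', funext fun i => mul_left_cancel₀ (a := c (g i)) ?_ (h2 i), (nm_le_one hc).2 h3⟩
  exact RZ.ne_zero_iff.1 (hc (g i) ▸ inv_ne_zero (val_ne _ _))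

theorem nm_il (a : P → BD ℂ E) (b : Q → BD ℂ E) (V : RZ ℂ E) (u : P → E) :
    nm (Sum.elim a b) V (il E P Q u) = nm a V u :=
  nm_congr fun γ => ⟨fun h i => h (Sum.inl i), fun h i => by
    rcases i with i | i
    · exact h i
    · exact (map_zero V.v).trans_le zero_le⟩

theorem nm_ir (a : P → BD ℂ E) (b : Q → BD ℂ E) (V : RZ ℂ E) (u : Q → E) :
    nm (Sum.elim a b) V (ir E P Q u) = nm b V u :=
  nm_congr fun γ => ⟨fun h i => h (Sum.inr i), fun h i => by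
    rcases i with i | i
    · exact (map_zero V.v).trans_le zero_le
    · exact h i⟩

end Lat

/-- the normal spaces have constant rank `c` on the target -/
def Rg (T : Tgt io A) (c : ℕ) : Prop :=
  ∀ (E : Type) [Field E] [Algebra ℂ E] (y : Pnt io E), NZ y → T.On y → finrank E (T.Nm y) = c

theorem rg_of_smo {T : Tgt io A} {c : ℕ} (h : Smo T c) : Rg T c := fun E _ _ y hy hO =>
  (h.2.choose_spec E y hy hO).1

variable {T : Tgt io A} {c : ℕ} {V : RZ ℂ E} {y y' : Pnt io E}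

theorem Rg.red (hR : Rg T c) {p : Pl ℂ E ℂ E'} (hp : Lc p) (h : Prim p.V y) (hO : T.On y) :
    finrank E (T.Nm y) ≤ finrank E' (T.Nm (redP p y)) :=
  ((hR _ _ (Prim.nz h) hO).trans (hR _ _ (Prim.nz_red h) (on_red hp T (Prim.int h) hO)).symm).le

theorem jac_onto (hR : Rg T c) (h : Prim V y) (hO : T.On y) {n : A → E} (hn : n ∈ T.Nm y)
    (hi : ∀ α, n α ∈ V.1) : ∃ a, T.jac y a = n ∧ ∀ v, a v ∈ V.1 := by
  obtain ⟨x, rfl⟩ := hn
  have hy : Int (plV V) (vec y) := Prim.int (p := plV V) h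
  obtain ⟨u, -, e, hu⟩ := int_onto V (U := ⊤) (φ := T.jac y)
    (fun x _ hx => jac_int (p := plV V) T hy hx) (N := T.Nm (redP (plV V) y)) (by
      rintro _ ⟨a, rfl⟩
      obtain ⟨x, hx, rfl⟩ := exists_lift V a
      exact ⟨x, trivial, hx, (r_jac (lnr_plV V) T hy hx).symm⟩)
    (by rw [Submodule.map_top]; exact hR.red (lnr_plV V) h hO) (x := x) trivial hi
  exact ⟨u, e, hu⟩

/-! ### the tangent space -/

theorem mem_eul {τ : Vr io → E} : τ ∈ eul y ↔ ∃ l : J → E, τ = vsc l (vec y) := by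
  rw [eul, Submodule.mem_span_range_iff_exists_fun]
  refine exists_congr fun l => ?_
  have : (∑ j, l j • fun v : Vr io => if v.1 = j then y v.1 v.2 else 0) = vsc l (vec y) := by
    funext v
    simp [Finset.sum_apply, vec]
  rw [this, eq_comm]

theorem v_wg_le (a : Vr io → E) (x : Dg io) :
    V.v (wg a (vec y') x) ≤ nm (fun v : Vr io => ln y v.1) V a * (da y y' x).val V := by
  rw [wg_apply, da, val_add, ← mul_assoc]
  refine V.v.map_sub_le ?_ ?_ <;> rw [map_mul] <;>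
    exact mul_le_mul' (le_nm (fun v : Vr io => ln y v.1) V a _) (le_ln y' _ _ V)

theorem nm_wg (hP : Par y y') (h' : NZ y') (V : RZ ℂ E) (τ : Vr io → E) :
    nm (da y y') V (wg τ (vec y')) = ds (fun v : Vr io => ln y v.1) V (eul y) τ := by
  obtain ⟨c, hc, e⟩ := hP
  refine le_antisymm (le_ds.2 fun w hw => ?_) (ds_le_iff.2 ?_)
  · obtain ⟨l, rfl⟩ := mem_eul.1 hw
    have : vsc l (vec y) = vsc (l * c) (vec y') := by
      funext v; simp [e, vec_scl, mul_assoc]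
    rw [← wg_sub_vsc τ (l * c), this]
    exact nm_le.2 (v_wg_le _)
  · choose i hi using fun j => exists_ln h' j V
    have h0 : ∀ j, y' j (i j) ≠ 0 := fun j => RZ.ne_zero_iff.1 (hi j ▸ val_ne _ _)
    refine ⟨_, mem_eul.2 ⟨fun j => τ ⟨j, i j⟩ / (c j * y' j (i j)), rfl⟩, nm_le.2 fun v => ?_⟩
    have : (τ - vsc (fun j => τ ⟨j, i j⟩ / (c j * y' j (i j))) (vec y)) v =
        wg τ (vec y') ⟨v.1, v.2, i v.1⟩ / y' v.1 (i v.1) := by
      have := h0 v.1
      have := hc v.1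
      simp only [Pi.sub_apply, vsc_apply, wg_apply, vec, e, scl]
      field_simp
    rw [this, map_div₀, hi, div_le_iff₀ (val_pos _ _), mul_assoc]
    exact le_nm (da y y') V _ ⟨v.1, v.2, i v.1⟩

theorem val_da (h : Prim V y) (h' : Prim V y') (x : Dg io) : (da y y' x).val V = 1 := by
  rw [da, val_add, h.val_ln, h'.val_ln, mul_one]

theorem da_scl (h : NZ y) (h' : NZ y') {c c' : J → E} (hc : ∀ j, c j ≠ 0) (hc' : ∀ j, c' j ≠ 0)
    (x : Dg io) : da (scl c y) (scl c' y') x = da y y' x + pr ℂ (gD c c' x) := by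
  rw [da, da, ln_scl h hc, ln_scl h' hc', gD, pr_mul (hc _) (hc' _)]
  abel

theorem da_red {p : Pl ℂ E ℂ E'} (h : Prim p.V y) (h' : Prim p.V y') :
    da (redP p y) (redP p y') = fun x => p.res (da y y' x) := funext fun x => by
  rw [da, da, ln_red h, ln_red h', Pl.res_add (h.val_ln _) (h'.val_ln _)]

theorem dh_eq (y y' : Pnt io E) : dh y y' = -sz (dl y y') (da y y') := rfl

theorem dh_scl (h : NZ y) (h' : NZ y') {c c' : J → E} (hc : ∀ j, c j ≠ 0) (hc' : ∀ j, c' j ≠ 0) :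
    dh (scl c y) (scl c' y') = dh y y' := by
  rw [dh_eq, dh_eq, funext (da_scl h h' hc hc'), funext (dl_scl c c' y y'), sz_scl (gD_ne hc hc')]

theorem nm_dl_le (V : RZ ℂ E) : nm (da y y') V (dl y y') ≤ 1 :=
  nm_le.2 fun x => (v_wg_le _ x).trans (mul_le_mul_left (nm_le.2 fun v => by
    rw [one_mul]; exact le_ln y _ _ V) _)

theorem val_dh (h : dl y y' ≠ 0) (V : RZ ℂ E) :
    (dh y y').val V = (nm (da y y') V (dl y y'))⁻¹ := by rw [dh_eq, val_neg, val_sz h]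

theorem dh_nonneg (y y' : Pnt io E) : 0 ≤ dh y y' := fun V => by
  by_cases h0 : dl y y' = 0
  · rw [dh_eq, h0, sz_zero, neg_zero]
  · rw [val_dh h0, val_zero]
    exact (one_le_inv₀ (nm_pos h0)).2 (nm_dl_le V)

section Cp

variable {B : Th} (hB : B.Ax) [Algebra.EssFiniteType ℂ E]
include hB

theorem cp_TY (hP : Par y y') (h' : NZ y') (hO : T.On y) :
    B.cp (da y y') (TY T y y') = cT B T y := by
  have h1 : eul y ≤ LinearMap.ker (T.jac y) := fun τ hτ => by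
    obtain ⟨l, rfl⟩ := mem_eul.1 hτ
    exact jac_euler T hO l
  have h2 : TY T y y' = ⊥ ⊔ (LinearMap.ker (T.jac y)).map (wg.flip (vec y')) := by
    rw [bot_sup_eq]
    exact Submodule.ext fun w => mem_TY T hP
  rw [h2]
  exact hB.cp2_map h1 fun V τ _ => ds_bot.trans (nm_wg hP h' V τ)

theorem cp_TP_scl (h : NZ y) (h' : NZ y') {c c' : J → E} (hc : ∀ j, c j ≠ 0)
    (hc' : ∀ j, c' j ≠ 0) :
    B.cp (da (scl c y) (scl c' y')) (TP (scl c y) (scl c' y')) = B.cp (da y y') (TP y y') := by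
  rw [TP_scl hc hc']
  exact hB.cp_dia (gD_ne hc hc') (da_scl h h' hc hc') _

theorem cT_scl (h : NZ y) (hO : T.On y) {c : J → E} (hc : ∀ j, c j ≠ 0) :
    cT B T (scl c y) = cT B T y := by
  rw [← cp_TY hB (Par.refl _) (nz_scl h hc) (on_scl T hO c), ← cp_TY hB (Par.refl _) h hO,
    TY_scl T hc hc]
  exact hB.cp_dia (gD_ne hc hc) (da_scl h h hc hc) _

theorem cp_TP_red [Algebra.EssFiniteType ℂ E'] (p : LP E E') (hP : Par y y') (h : Prim p.V y)
    (h' : Prim p.V y') :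
    B.cp (da (redP p.toPl y) (redP p.toPl y')) (TP (redP p.toPl y) (redP p.toPl y')) =
      (B.cp (da y y') (TP y y')).map (B.pb p : B.H E →+* B.H E') := by
  rw [hB.cp_rd (val_da h h'), rd_eq, TP_red hP h h', da_red h h']

theorem cT_red [Algebra.EssFiniteType ℂ E'] (hR : Rg T c) (p : LP E E') (h : Prim p.V y)
    (hO : T.On y) : cT B T (redP p.toPl y) = (cT B T y).map (B.pb p : B.H E →+* B.H E') := by
  rw [← cp_TY hB (Par.refl _) (Prim.nz_red h) (on_red p.lnr T (Prim.int h) hO),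
    ← cp_TY hB (Par.refl _) (Prim.nz h) hO, hB.cp_rd (val_da h h), rd_eq,
    TY_red p.lnr T (Par.refl _) h h hO (hR.red p.lnr h hO), da_red h h]

end Cp

/-! ### the two filtrations -/

variable {z : Cfg io I E} {q q' : I}

theorem pl_onto (hR : Rg T c) (h : z.Pr V) (hO : z.On T) {x : (A × I) ⊕ Dg io → E}
    (hx : x ∈ EE T z q q') (hi : ∀ i, x (Sum.inl i) ∈ V.1) :
    ∃ u ∈ EE T z q q', (∀ i, u (Sum.inl i) = x (Sum.inl i)) ∧ ∀ i, u i ∈ V.1 := by
  obtain ⟨a, ha, ha'⟩ := jac_onto hR (h q) (hO q) ((mem_Eb.1 hx.1).2 q) fun α => hi _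
  obtain ⟨b, hb, hb'⟩ := jac_onto hR (h q') (hO q') ((mem_Eb.1 hx.1).2 q') fun α => hi _
  refine ⟨Sum.elim (fun i => x (Sum.inl i)) (dd (z.y q) (z.y q') (a, b)),
    ⟨hx.1, a, b, ha.symm, hb.symm, rfl⟩, fun _ => rfl, ?_⟩
  rintro (i | i)
  · exact hi i
  · exact add_mem (wg_int (p := plV V) ha' (Prim.int (h q')) i)
      (wg_int (p := plV V) (Prim.int (h q)) hb' i)

/-- difference of the values at two points -/
def dif (T : Tgt io A) (l : J → E) (q q' : I) : (A × I → E) →ₗ[E] (A → E) where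
  toFun σ α := σ (α, q) - chr l (T.k α) * σ (α, q')
  map_add' _ _ := funext fun _ => by simp only [Pi.add_apply]; ring
  map_smul' _ _ := funext fun _ => by simp only [Pi.smul_apply, smul_eq_mul, RingHom.id_apply]; ring

theorem pr_onto (hR : Rg T c) (h : z.Pr V) (hO : z.On T) (hP : Par (z.y q) (z.y q'))
    (hE : (z.red0 (plV V)).Eb T = redS (plV V) (z.Eb T)) (hv : EV T (z.red0 (plV V)) q q')
    {x : (A × I) ⊕ Dg io → E} (hx : x ∈ EE T z q q') (hi : ∀ i, x (Sum.inr i) ∈ V.1) :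
    ∃ u ∈ EE T z q q', (∀ i, u (Sum.inr i) = x (Sum.inr i)) ∧ ∀ i, u i ∈ V.1 := by
  obtain ⟨l, hl0, e⟩ := id hP
  have hl : Int (plV V) l := par_int (h q) (h q') e
  obtain ⟨h1, τ, h2, h3⟩ := (mem_EE e).1 hx
  obtain ⟨m, hm⟩ := exists_int_wg (h q') τ fun i => by
    rw [← congrFun h3 i]; exact RZ.le_one_iff.2 (hi _)
  have hm' : Int (plV V) (τ - vsc m (vec (z.y q'))) := fun v => RZ.le_one_iff.1 (hm v)
  have h4 : dif T l q q' (fun i => x (Sum.inl i)) = T.jac (z.y q) (τ - vsc m (vec (z.y q'))) := by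
    rw [jac_sub_vsc T hP (hO q)]
    exact funext h2
  obtain ⟨u, hu, e1, hu'⟩ := int_onto V (U := z.Eb T) (φ := dif T l q q')
    (fun σ _ hσ α => sub_mem (hσ _) (mul_mem (chr_int hl _) (hσ _)))
    (N := T.Nm (redP (plV V) (z.y q))) (fun n hn => by
      obtain ⟨s, hs, e1, e2⟩ := hv n hn
      rw [hE] at hs
      obtain ⟨σ, hσ, hσ', rfl⟩ := exists_of_mem_redS (surj_plV V) hs
      refine ⟨σ, hσ, hσ', funext fun α => ?_⟩
      change _ = (plV V).r (_ - _)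
      rw [Pl.r_sub (hσ' _) (mul_mem (chr_int hl _) (hσ' _)), Pl.r_mul (chr_int hl _) (hσ' _),
        show (plV V).r (σ (α, q')) = 0 from e2 α, mul_zero, sub_zero]
      exact (congrFun e1 α).symm)
    (le_trans (Submodule.finrank_mono (by
      rintro _ ⟨σ, hσ, rfl⟩
      refine sub_mem ((mem_Eb.1 hσ).2 q) ?_
      rw [e]
      exact (mem_Nm_scl T hl0).2 ((mem_Eb.1 hσ).2 q'))) (hR.red (lnr_plV V) (h q) (hO q))) h1
    (h4 ▸ jac_int (p := plV V) T (Prim.int (h q)) hm')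
  refine ⟨Sum.elim u fun i => x (Sum.inr i), (mem_EE e).2 ⟨hu, τ, fun α => ?_, h3⟩,
    fun _ => rfl, ?_⟩
  · exact (congrFun e1 α).trans (h2 α)
  · rintro (i | i)
    · exact hu' i
    · exact hi i

theorem v_gS (hz : z.NZ) (V : RZ ℂ E) (x : (A × I) ⊕ Dg io) :
    V.v (gS T (z.nrm V) q q' x) = ((ed T z q q' x).val V)⁻¹ := by
  have h := fun q j => Prim.v_eq (hz q) (nrm_ne V z q) (prim_nrm V (hz q)) j
  rcases x with x | x
  · change V.v (chr _ _) = ((lw _ _).val V)⁻¹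
    simp only [chr, map_prod, map_pow, h, val_lw, inv_pow, Finset.prod_inv_distrib]
  · change V.v (_ * _) = ((ln _ _ + ln _ _).val V)⁻¹
    rw [map_mul, h, h, val_add, mul_inv]

/-- the two filtrations of `EE` -/
theorem cp_node {B : Th} (hB : B.Ax) [Algebra.EssFiniteType ℂ E] (hR : Rg T c) (hz : z.NZ)
    (hO : z.On T) (hP : Par (z.y q) (z.y q')) (hv : EV T z q q')
    (hE : ∀ V, (z.red (plV V)).Eb T = redS (plV V) ((z.gau (z.nrm V)).Eb T))
    (hv' : ∀ V, EV T (z.red (plV V)) q q') :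
    cpz B T (jn z q q') * B.cp (da (z.y q) (z.y q')) (TP (z.y q) (z.y q')) =
      cT B T (z.y q) * cpz B T z := by
  have h0 := fun V => nrm_ne V z
  have h1 : Ont (ed T z q q') (z.ea T) (pl E _ _) (EE T z q q') :=
    ont_funLeft (a := ed T z q q') (g := Sum.inl) fun V => ⟨_, v_gS hz V, fun x hx hi => by
      rw [← EE_gau (h0 V)] at hx ⊢
      exact pl_onto hR (Cfg.pr_nrm hz V) ((Cfg.on_gau T (h0 V)).2 hO) hx hi⟩
  have h2 : Ont (ed T z q q') (da (z.y q) (z.y q')) (pr' E _ _) (EE T z q q') :=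
    ont_funLeft (a := ed T z q q') (g := Sum.inr) fun V => ⟨_, v_gS hz V, fun x hx hi => by
      rw [← EE_gau (h0 V)] at hx ⊢
      exact pr_onto hR (Cfg.pr_nrm hz V) ((Cfg.on_gau T (h0 V)).2 hO)
        (hP.scl (h0 V q) (h0 V q')) (hE V) (hv' V) hx hi⟩
  have h3 := hB.cp_whitney h1
  have h4 := hB.cp_whitney h2
  rw [map_pl_EE, ker_pl_EE, hB.cp_iso (a' := ed T z q q') fun V x _ => nm_ir _ _ V x,
    cp_TY hB hP (hz q') (hO q)] at h3
  rw [map_pr_EE hP hv, ker_pr_EE hP (hz q') (hO q),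
    hB.cp_iso (a' := ed T z q q') fun V x _ => nm_il _ _ V x] at h4
  exact h4.symm.trans h3

/-! ### disjoint unions -/

section Pair

variable {z₁ : Cfg io I₁ E} {z₂ : Cfg io I₂ E}

theorem nz_pair : (pair z₁ z₂).NZ ↔ z₁.NZ ∧ z₂.NZ := Sum.forall

theorem on_pair : (pair z₁ z₂).On T ↔ z₁.On T ∧ z₂.On T := Sum.forall

theorem cpz_pair {B : Th} (hB : B.Ax) [Algebra.EssFiniteType ℂ E] (z₁ : Cfg io I₁ E)
    (z₂ : Cfg io I₂ E) : cpz B T (pair z₁ z₂) = cpz B T z₁ * cpz B T z₂ := by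
  have h := hB.cp_funLeft (a := (pair z₁ z₂).ea T) (U := (pair z₁ z₂).Eb T)
    (g := (Equiv.prodSumDistrib A I₁ I₂).symm)
    fun x _ i hi => absurd ((Equiv.surjective _).range_eq ▸ Set.mem_univ i) hi
  have h1 : ((pair z₁ z₂).Eb T).map (LinearMap.funLeft E E (Equiv.prodSumDistrib A I₁ I₂).symm) =
      dsum (z₁.Eb T) (z₂.Eb T) := by
    refine Submodule.ext fun w => ⟨?_, fun hw => ?_⟩
    · rintro ⟨σ, hσ, rfl⟩
      exact mem_dsum.2 (mem_Eb_pair.1 hσ)
    · refine ⟨fun x => w (Equiv.prodSumDistrib A I₁ I₂ x), mem_Eb_pair.2 (mem_dsum.1 hw), ?_⟩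
      funext x
      simp [LinearMap.funLeft_apply]
  have h2 : (fun i => (pair z₁ z₂).ea T ((Equiv.prodSumDistrib A I₁ I₂).symm i)) =
      Sum.elim (z₁.ea T) (z₂.ea T) := funext fun i => by rcases i with i | i <;> rfl
  rw [h1, h2, hB.cp_dsum] at h
  exact h.symm

theorem nm_pair (V : RZ ℂ E) : nm ((pair z₁ z₂).ea T) V ((pair z₁ z₂).sv T) =
    max (nm (z₁.ea T) V (z₁.sv T)) (nm (z₂.ea T) V (z₂.sv T)) := by
  refine eq_of_forall_ge_iff fun γ => ?_
  rw [max_le_iff, nm_le, nm_le, nm_le]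
  refine ⟨fun h => ⟨fun x => h (x.1, Sum.inl x.2), fun x => h (x.1, Sum.inr x.2)⟩, ?_⟩
  rintro h ⟨a, x | x⟩
  · exact h.1 (a, x)
  · exact h.2 (a, x)

theorem dv_pair (h₁ : ¬z₁.On T) (h₂ : ¬z₂.On T) : (pair z₁ z₂).dv T = z₁.dv T ⊓ z₂.dv T :=
  ext' fun V => by
    rw [val_inf, Cfg.val_dv T h₁, Cfg.val_dv T h₂, Cfg.val_dv T fun h => h₁ (on_pair.1 h).1,
      nm_pair]
    rcases le_total (nm (z₁.ea T) V (z₁.sv T)) (nm (z₂.ea T) V (z₂.sv T)) with h | h
    · rw [max_eq_right h, min_eq_right (inv_anti₀ (nm_pos (mt (Cfg.on_iff T).2 h₁)) h)]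
    · rw [max_eq_left h, min_eq_left (inv_anti₀ (nm_pos (mt (Cfg.on_iff T).2 h₂)) h)]

theorem rk_pair (h₁ : Rk T z₁) (h₂ : Rk T z₂) : Rk T (pair z₁ z₂) where
  nz := nz_pair.2 ⟨h₁.nz, h₂.nz⟩
  eb p q hO := by
    rw [pair_red] at hO ⊢
    rw [Cfg.red, pair_gau _ _ (nrm_ne _ _)]
    exact (Eb_pair_red (h₁.eb p q (on_pair.1 hO).1).symm (h₂.eb p q (on_pair.1 hO).2).symm).symm
  sv p hO u hu := by
    rw [pair_red] at hO ⊢
    exact mem_Eb_pair.2 ⟨h₁.sv p (on_pair.1 hO).1 u fun x => hu (x.1, Sum.inl x.2),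
      h₂.sv p (on_pair.1 hO).2 u fun x => hu (x.1, Sum.inr x.2)⟩

end Pair

/-! ### roots -/

/-- the normalised reduction of a section spans a line whose class is a root -/
theorem eval_dir {B : Th} (hB : B.Ax) [Algebra.EssFiniteType ℂ E'] {P : Type} [Fintype P]
    (p : LP E E') {a : P → BD ℂ E} (ha : ∀ i, (a i).val p.V = 1) {s : P → E} (hs : s ≠ 0) {u : E}
    (hu : p.V.v u = (nm a p.V s)⁻¹) {U : Submodule E' (P → E')}
    (hU : (fun i => p.r (u * s i)) ∈ U) :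
    (B.cp (fun i => p.res (a i)) U).eval (B.pb p (B.c1 (-sz s a))) = 0 := by
  have hg : u ≠ 0 := RZ.ne_zero_iff.1 (hu ▸ inv_ne_zero (nm_pos hs).ne')
  have h1 : nm a p.V (u • s) = 1 := by rw [nm_smul, hu, inv_mul_cancel₀ (nm_pos hs).ne']
  have h3 : Hb.rv p (u • s) ≠ 0 := (rv_eq_zero ha ((itg_iff ha).2 h1.le)).not.2 h1.not_lt
  have h4 : -sz s a - pr ℂ u = -sz (u • s) a := by
    rw [sz_smul hs hg, neg_add]
    abel
  rw [hB.pb_c1_gen p (g := u) (by rw [val_neg, val_sz hs, hu]), h4,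
    Pl.res_neg (by rw [val_sz (smul_ne_zero hg hs), h1]), res_sz p.toPl ha h1]
  exact (congrArg (fun b => eval (B.c1 (-b)) _) (sz_eq_dst h3 _)).trans (hB.eval_cp_line hU h3)

end Crest.Agent.X262.Node22
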