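import Crest.Agent.X262.Node22.Alg

/-! # Node algebra along a place: reduction of `TP`, `TY`, `EE`, `jn`; the section lies in `EE` -/

set_option autoImplicit false
set_option linter.unusedSectionVars false

noncomputable section

namespace Crest.Agent.X262.Node22

open Crest.Agent.X277 Crest.Agent.X277.BD Crest.Agent.X262.Vb Module MvPolynomial

variable {J : Type} [Fintype J] [DecidableEq J] {io : J → Type} [∀ j, Fintype (io j)]
  [∀ j, DecidableEq (io j)] {A : Type} [Fintype A] {E E' : Type} [Field E] [Algebra ℂ E]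
  [Field E'] [Algebra ℂ E'] {I I₁ I₂ P Q : Type} [Fintype I] [Fintype I₁] [Fintype I₂] [Fintype P]
  [Fintype Q] {p : Pl ℂ E ℂ E'}

/-- the place is `ℂ`-linear (this is `Lnr p` unfolded) -/
abbrev Lc (p : Pl ℂ E ℂ E') : Prop := ∀ c : ℂ, p.r (algebraMap ℂ E c) = algebraMap ℂ E' c

/-- all coordinates are integral -/
abbrev Int (p : Pl ℂ E ℂ E') (u : P → E) : Prop := ∀ x, u x ∈ p.V.1

/-- coordinatewise reduction -/
abbrev rv (p : Pl ℂ E ℂ E') (u : P → E) : P → E' := fun x => p.r (u x)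

theorem r_sum {ι : Type*} (s : Finset ι) {f : ι → E} (h : ∀ i ∈ s, f i ∈ p.V.1) :
    p.r (∑ i ∈ s, f i) = ∑ i ∈ s, p.r (f i) := by
  classical
  induction s using Finset.induction_on with
  | empty => simp
  | insert i s hi ih =>
    rw [Finset.sum_insert hi, Finset.sum_insert hi, Pl.r_add (h i (Finset.mem_insert_self _ _))
      (sum_mem fun j hj => h j (Finset.mem_insert_of_mem hj)),
      ih fun j hj => h j (Finset.mem_insert_of_mem hj)]

theorem r_prod {ι : Type*} (s : Finset ι) {f : ι → E} (h : ∀ i ∈ s, f i ∈ p.V.1) :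
    p.r (∏ i ∈ s, f i) = ∏ i ∈ s, p.r (f i) := by
  classical
  induction s using Finset.induction_on with
  | empty => simp
  | insert i s hi ih =>
    rw [Finset.prod_insert hi, Finset.prod_insert hi, Pl.r_mul (h i (Finset.mem_insert_self _ _))
      (prod_mem fun j hj => h j (Finset.mem_insert_of_mem hj)),
      ih fun j hj => h j (Finset.mem_insert_of_mem hj)]

theorem aeval_int {σ : Type*} {y : σ → E} (V : RZ ℂ E) (h : ∀ v, y v ∈ V.1)
    (q : MvPolynomial σ ℂ) : aeval y q ∈ V.1 := by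
  induction q using MvPolynomial.induction_on with
  | C c => simpa using V.2 c
  | add a b ha hb => simpa using add_mem ha hb
  | mul_X a n ha => simpa using mul_mem ha (h n)

theorem r_aeval (hp : Lc p) {σ : Type*} {y : σ → E} (h : ∀ v, y v ∈ p.V.1)
    (q : MvPolynomial σ ℂ) : p.r (aeval y q) = aeval (fun v => p.r (y v)) q := by
  induction q using MvPolynomial.induction_on with
  | C c => simpa using hp c
  | add a b ha hb => simp [Pl.r_add (aeval_int p.V h a) (aeval_int p.V h b), ha, hb]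
  | mul_X a n ha => simp [Pl.r_mul (aeval_int p.V h a) (h n), ha]

theorem chr_int {c : J → E} (hc : Int p c) (κ : J → ℕ) : chr c κ ∈ p.V.1 :=
  prod_mem fun j _ => pow_mem (hc j) _

theorem r_chr {c : J → E} (hc : Int p c) (κ : J → ℕ) : p.r (chr c κ) = chr (rv p c) κ := by
  rw [chr, r_prod _ fun j _ => pow_mem (hc j) _]
  exact Finset.prod_congr rfl fun j _ => Pl.r_pow (hc j) _

theorem Prim.int {y : Pnt io E} (h : Prim p.V y) : Int p (vec y) := fun v => (h v.1).1 v.2

theorem Prim.nz {V : RZ ℂ E} {y : Pnt io E} (h : Prim V y) : NZ y := fun j =>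
  (h j).2.imp fun _ hi => RZ.ne_zero_iff.1 (hi ▸ one_ne_zero)

theorem Prim.nz_red {y : Pnt io E} (h : Prim p.V y) : NZ (redP p y) := fun j =>
  (h j).2.imp fun _ hi => Pl.r_ne_zero_iff.2 hi

theorem on_red (hp : Lc p) (T : Tgt io A) {y : Pnt io E} (h : Int p (vec y)) (hO : T.On y) :
    T.On (redP p y) := fun α => (r_aeval hp h (T.F α)).symm.trans (by
  rw [show aeval (vec y) (T.F α) = 0 from hO α, Pl.r_zero])

theorem jac_int (T : Tgt io A) {y : Pnt io E} (h : Int p (vec y)) {a : Vr io → E} (ha : Int p a) :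
    Int p (T.jac y a) := fun α => by
  rw [jac_apply]; exact sum_mem fun v _ => mul_mem (aeval_int p.V h _) (ha v)

theorem r_jac (hp : Lc p) (T : Tgt io A) {y : Pnt io E} (h : Int p (vec y)) {a : Vr io → E}
    (ha : Int p a) : rv p (T.jac y a) = T.jac (redP p y) (rv p a) := by
  funext α
  simp only [rv, jac_apply]
  rw [r_sum _ fun v _ => mul_mem (aeval_int p.V h _) (ha v)]
  exact Finset.sum_congr rfl fun v _ => by
    rw [Pl.r_mul (aeval_int p.V h _) (ha v), r_aeval hp h]; rfl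

theorem wg_int {a b : Vr io → E} (ha : Int p a) (hb : Int p b) : Int p (wg a b) := fun _ =>
  sub_mem (mul_mem (ha _) (hb _)) (mul_mem (ha _) (hb _))

theorem r_wg {a b : Vr io → E} (ha : Int p a) (hb : Int p b) :
    rv p (wg a b) = wg (rv p a) (rv p b) := by
  funext x
  simp only [rv, wg_apply]
  rw [Pl.r_sub (mul_mem (ha _) (hb _)) (mul_mem (ha _) (hb _)), Pl.r_mul (ha _) (hb _),
    Pl.r_mul (ha _) (hb _)]

/-! ### reduction of subspaces -/

theorem mem_redS {U : Submodule E (P → E)} {u : P → E} (hu : u ∈ U) (h : Int p u) :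
    rv p u ∈ redS p U := Submodule.subset_span ⟨u, hu, h, rfl⟩

theorem redS_le {U : Submodule E (P → E)} {U' : Submodule E' (P → E')} :
    redS p U ≤ U' ↔ ∀ u ∈ U, Int p u → rv p u ∈ U' :=
  ⟨fun h _ hu hi => h (mem_redS hu hi), fun h => Submodule.span_le.2 (by
    rintro _ ⟨u, hu, hi, rfl⟩; exact h u hu hi)⟩

theorem redS_mono {U U' : Submodule E (P → E)} (h : U ≤ U') : redS p U ≤ redS p U' :=
  redS_le.2 fun _ hu hi => mem_redS (h hu) hi

/-- a nonzero vector has a multiple with integral coordinates, one of them being `1` -/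
theorem exists_prim (V : RZ ℂ E) {u : P → E} (hu : u ≠ 0) :
    ∃ x, u x ≠ 0 ∧ ∀ y, u y / u x ∈ V.1 := by
  obtain ⟨x₀, hx₀⟩ := Function.ne_iff.1 hu
  obtain ⟨x, -, hx⟩ := Finset.univ.exists_max_image (fun x => V.v (u x)) ⟨x₀, Finset.mem_univ _⟩
  have h0 : u x ≠ 0 := RZ.ne_zero_iff.1 ((RZ.pos hx₀).trans_le (hx x₀ (Finset.mem_univ _))).ne'
  exact ⟨x, h0, fun y => (RZ.le_iff h0).1 (hx y (Finset.mem_univ _))⟩

theorem finrank_inf_ker {K : Type} [Field K] {U : Submodule K (P → K)} {u : P → K} (hu : u ∈ U)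
    {x : P} (hx : u x ≠ 0) :
    finrank K (U ⊓ LinearMap.ker (LinearMap.proj x) : Submodule K (P → K)) + 1 = finrank K U := by
  have := LinearMap.finrank_range_add_finrank_ker ((LinearMap.proj x : _ →ₗ[K] K).domRestrict U)
  rw [LinearMap.ker_domRestrict, ← Submodule.finrank_map_subtype_eq U, Submodule.map_comap_subtype,
    LinearMap.range_eq_top.2 fun a => ⟨⟨(a / u x) • u, U.smul_mem _ hu⟩, by simp [hx]⟩] at this
  rw [← this, add_comm]; simp

theorem finrank_redS (p : Pl ℂ E ℂ E') (U : Submodule E (P → E)) :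
    finrank E' (redS p U) = finrank E U := by
  generalize hn : finrank E U = n
  induction n generalizing U with
  | zero =>
    obtain rfl : U = ⊥ := Submodule.finrank_eq_zero.1 hn
    rw [Submodule.finrank_eq_zero, eq_bot_iff, redS_le]
    rintro u rfl -
    exact funext fun _ => p.r_zero
  | succ n ih =>
    obtain ⟨u₀, hu₀, h0⟩ := U.exists_mem_ne_zero_of_ne_bot (by rintro rfl; simp at hn)
    obtain ⟨x, hx, hi⟩ := exists_prim p.V h0
    set u : P → E := (u₀ x)⁻¹ • u₀ with hu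
    have hU : u ∈ U := U.smul_mem _ hu₀
    have hI : Int p u := fun y => by simpa [hu, div_eq_inv_mul] using hi y
    have h1 : u x = 1 := by simp [hu, hx]
    have h2 : rv p u x = 1 := by simp [rv, h1]
    have e : redS p (U ⊓ LinearMap.ker (LinearMap.proj x)) =
        redS p U ⊓ LinearMap.ker (LinearMap.proj x) := by
      refine le_antisymm (le_inf (redS_mono inf_le_left) (redS_le.2 fun w hw _ => ?_)) ?_
      · change p.r (w x) = 0
        rw [show w x = 0 from hw.2, Pl.r_zero]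
      have : ∀ w ∈ redS p U, w - w x • rv p u ∈ redS p (U ⊓ LinearMap.ker (LinearMap.proj x)) := by
        intro w hw
        induction hw using Submodule.span_induction with
        | mem w hw =>
          obtain ⟨w, hw, hwi, rfl⟩ := hw
          have hm : w - w x • u ∈ U ⊓ LinearMap.ker (LinearMap.proj x) :=
            ⟨U.sub_mem hw (U.smul_mem _ hU), by simp [h1]⟩
          convert mem_redS (p := p) hm
            fun y => sub_mem (hwi y) (mul_mem (hwi x) (hI y)) using 1
          funext y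
          simp only [rv, Pi.sub_apply, Pi.smul_apply, smul_eq_mul]
          rw [Pl.r_sub (hwi y) (mul_mem (hwi x) (hI y)), Pl.r_mul (hwi x) (hI y)]
        | zero => simp
        | add a b _ _ ha hb => convert add_mem ha hb using 1; simp [add_smul]; abel
        | smul t a _ ha =>
          convert Submodule.smul_mem _ t ha using 1; simp [smul_sub, mul_smul]
      rintro w ⟨hw, hw0⟩
      simpa [show w x = 0 from hw0] using this w hw
    have h3 := finrank_inf_ker hU (x := x) (by rw [h1]; exact one_ne_zero)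
    have h4 := finrank_inf_ker (mem_redS hU hI) (x := x) (by rw [h2]; exact one_ne_zero)
    rw [← e, ih _ (by omega)] at h4
    exact h4.symm

theorem redS_eq_of_le {U : Submodule E (P → E)} {U' : Submodule E' (P → E')} (h : redS p U ≤ U')
    (hr : finrank E' U' ≤ finrank E U) : redS p U = U' :=
  Submodule.eq_of_le_of_finrank_le h (by rwa [finrank_redS])

theorem redS_eq_of_ge {U : Submodule E (P → E)} {U' : Submodule E' (P → E')} (h : U' ≤ redS p U)
    (hr : finrank E U ≤ finrank E' U') : redS p U = U' :=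
  (Submodule.eq_of_le_of_finrank_le h (by rwa [finrank_redS])).symm

/-- the normal space commutes with reduction when the rank does not drop -/
theorem Nm_red (hp : Lc p) (T : Tgt io A) {y : Pnt io E} (h : Int p (vec y))
    (hr : finrank E (T.Nm y) ≤ finrank E' (T.Nm (redP p y))) :
    redS p (T.Nm y) = T.Nm (redP p y) := by
  classical
  refine redS_eq_of_ge ?_ hr
  rintro _ ⟨a, rfl⟩
  rw [pi_eq_sum_univ a, map_sum]
  refine sum_mem fun v _ => ?_
  rw [map_smul]
  refine Submodule.smul_mem _ _ ?_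
  have hi : Int p fun w : Vr io => if v = w then (1 : E) else 0 := fun w => by
    dsimp only; split_ifs; exacts [one_mem _, zero_mem _]
  convert mem_redS (U := T.Nm y) ⟨_, rfl⟩ (jac_int T h hi) using 1
  rw [r_jac hp T h hi]
  congr 1
  funext w
  simp only [rv]
  split_ifs <;> simp

/-! ### minors -/

/-- an integral vector of minors comes from an integral vector -/
theorem exists_int_wg {V : RZ ℂ E} {y : Pnt io E} (h : Prim V y) (τ : Vr io → E) {γ : V.1.ValueGroup}
    (hw : ∀ x, V.v (wg τ (vec y) x) ≤ γ) : ∃ l : J → E, ∀ v, V.v ((τ - vsc l (vec y)) v) ≤ γ := by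
  choose i hi using fun j => (h j).2
  refine ⟨fun j => τ ⟨j, i j⟩ / y j (i j), fun v => ?_⟩
  have h0 : y v.1 (i v.1) ≠ 0 := RZ.ne_zero_iff.1 (hi v.1 ▸ one_ne_zero)
  have : (τ - vsc (fun j => τ ⟨j, i j⟩ / y j (i j)) (vec y)) v =
      wg τ (vec y) ⟨v.1, v.2, i v.1⟩ / y v.1 (i v.1) := by
    simp only [Pi.sub_apply, vsc_apply, wg_apply, vec]
    field_simp
  rw [this, map_div₀, hi, div_one]
  exact hw _

theorem par_int {y y' : Pnt io E} (h : Prim p.V y) (h' : Prim p.V y') {c : J → E}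
    (e : y = scl c y') : Int p c := fun j => by
  obtain ⟨i, hi⟩ := (h' j).2
  have := RZ.le_one_iff.2 ((h j).1 i)
  rw [e, scl, map_mul, hi, mul_one] at this
  exact RZ.le_one_iff.1 this

theorem red_scl {y : Pnt io E} (h : Int p (vec y)) {c : J → E} (hc : Int p c) :
    redP p (scl c y) = scl (rv p c) (redP p y) :=
  funext fun j => funext fun i => Pl.r_mul (hc j) (h ⟨j, i⟩)

theorem Par.red {y y' : Pnt io E} (hP : Par y y') (h : Prim p.V y) (h' : Prim p.V y') :
    Par (redP p y) (redP p y') := by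
  rw [← dl_eq_zero (Prim.nz_red h) (Prim.nz_red h')]
  have := r_wg (Prim.int h) (Prim.int h')
  rw [show wg (vec y) (vec y') = 0 from (dl_eq_zero (Prim.nz h) (Prim.nz h')).2 hP] at this
  exact this.symm.trans (funext fun _ => p.r_zero)

theorem wg_sub_vsc (τ : Vr io → E) (l : J → E) (a : Vr io → E) : wg (τ - vsc l a) a = wg τ a := by
  rw [map_sub, LinearMap.sub_apply, wg_vsc_self, sub_zero]

theorem jac_sub_vsc (T : Tgt io A) {y y' : Pnt io E} (hP : Par y y') (hO : T.On y) (τ : Vr io → E)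
    (l : J → E) : T.jac y (τ - vsc l (vec y')) = T.jac y τ := by
  obtain ⟨c, -, rfl⟩ := hP.symm
  have : vsc l (vec (scl c y)) = vsc (l * c) (vec y) := by funext v; simp [vec_scl, mul_assoc]
  rw [map_sub, this, jac_euler T hO, sub_zero]

theorem TP_red {y y' : Pnt io E} (hP : Par y y') (h : Prim p.V y) (h' : Prim p.V y') :
    redS p (TP y y') = TP (redP p y) (redP p y') := by
  refine redS_eq_of_le (redS_le.2 fun w hw hi => ?_) ?_
  · obtain ⟨τ, rfl⟩ := (mem_TP hP).1 hw
    obtain ⟨l, hl⟩ := exists_int_wg h' τ fun x => RZ.le_one_iff.2 (hi x)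
    rw [← wg_sub_vsc τ l, r_wg (fun v => RZ.le_one_iff.1 (hl v)) (Prim.int h')]
    exact (mem_TP (hP.red h h')).2 ⟨_, rfl⟩
  · rw [finrank_TP hP (Prim.nz h'), finrank_TP (hP.red h h') (Prim.nz_red h')]

theorem TY_red (hp : Lc p) (T : Tgt io A) {y y' : Pnt io E} (hP : Par y y') (h : Prim p.V y)
    (h' : Prim p.V y') (hO : T.On y) (hr : finrank E (T.Nm y) ≤ finrank E' (T.Nm (redP p y))) :
    redS p (TY T y y') = TY T (redP p y) (redP p y') := by
  refine redS_eq_of_le (redS_le.2 fun w hw hi => ?_) ?_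
  · obtain ⟨τ, h0, rfl⟩ := (mem_TY T hP).1 hw
    obtain ⟨l, hl⟩ := exists_int_wg h' τ fun x => RZ.le_one_iff.2 (hi x)
    have hl' : Int p (τ - vsc l (vec y')) := fun v => RZ.le_one_iff.1 (hl v)
    rw [← wg_sub_vsc τ l, r_wg hl' (Prim.int h')]
    refine (mem_TY T (hP.red h h')).2 ⟨_, ?_, rfl⟩
    rw [← r_jac hp T (Prim.int h) hl', jac_sub_vsc T hP hO, h0]
    exact funext fun _ => p.r_zero
  · have h1 := finrank_TY T hP (Prim.nz h') hO
    have h2 := finrank_TY T (hP.red h h') (Prim.nz_red h') (on_red hp T (Prim.int h) hO)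
    omega

variable {T : Tgt io A} {z : Cfg io I E} {q q' : I}

theorem redS_EE_le (hp : Lc p) (hP : Par (z.y q) (z.y q')) (h : Prim p.V (z.y q))
    (h' : Prim p.V (z.y q')) (hO : T.On (z.y q)) (hE : redS p (z.Eb T) ≤ (z.red0 p).Eb T) :
    redS p (EE T z q q') ≤ EE T (z.red0 p) q q' := by
  refine redS_le.2 fun u hu hi => ?_
  obtain ⟨c, hc0, e⟩ := id hP
  have hc := par_int h h' e
  obtain ⟨h1, τ, h2, h3⟩ := (mem_EE e).1 hu
  obtain ⟨l, hl⟩ := exists_int_wg h' τ fun x => by
    rw [← congrFun h3 x]; exact RZ.le_one_iff.2 (hi _)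
  have hl' : Int p (τ - vsc l (vec (z.y q'))) := fun v => RZ.le_one_iff.1 (hl v)
  have e' : (z.red0 p).y q = scl (rv p c) ((z.red0 p).y q') :=
    (congrArg (redP p) e).trans (red_scl (Prim.int h') hc)
  refine (mem_EE e').2 ⟨hE (mem_redS h1 fun x => hi _), rv p (τ - vsc l (vec (z.y q'))),
    fun α => ?_, ?_⟩
  · have := congrFun (r_jac hp T (Prim.int h) hl') α
    rw [jac_sub_vsc T hP hO] at this
    refine Eq.trans ?_ this
    simp only [rv]
    rw [← h2 α, Pl.r_sub (hi _) (mul_mem (chr_int hc _) (hi _)), Pl.r_mul (chr_int hc _) (hi _),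
      r_chr hc]
  · have := r_wg hl' (Prim.int h')
    rw [wg_sub_vsc, ← h3] at this
    exact this

/-- `EE` commutes with reduction -/
theorem EE_red (hp : Lc p) (hP : Par (z.y q) (z.y q')) (h : Prim p.V (z.y q))
    (h' : Prim p.V (z.y q')) (hO : T.On (z.y q))
    (hr : finrank E (T.Nm (z.y q)) ≤ finrank E' (T.Nm (redP p (z.y q))))
    (hE : redS p (z.Eb T) = (z.red0 p).Eb T) :
    redS p (EE T z q q') = EE T (z.red0 p) q q' := by
  refine redS_eq_of_le (redS_EE_le hp hP h h' hO hE.le) ?_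
  rw [finrank_EE, finrank_EE, ← hE, finrank_redS, ← finrank_redS p (TY _ _ _),
    TY_red hp T hP h h' hO hr]
  rfl

theorem redS_agr_le (hP : Par (z.y q) (z.y q')) (h : Prim p.V (z.y q)) (h' : Prim p.V (z.y q'))
    (κ : J → ℕ) : redS p ((jn z q q').V κ) ≤ (jn (z.red0 p) q q').V κ := by
  obtain ⟨c, -, e⟩ := hP
  have hc := par_int h h' e
  have e' : (z.red0 p).y q = scl (rv p c) ((z.red0 p).y q') :=
    (congrArg (redP p) e).trans (red_scl (Prim.int h') hc)
  refine redS_le.2 fun σ hσ hi => (mem_jn e' (Prim.nz_red h')).2 ?_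
  obtain ⟨h1, h2⟩ := (mem_jn e (Prim.nz h')).1 hσ
  refine ⟨mem_redS h1 hi, ?_⟩
  simp only [rv]
  rw [h2, Pl.r_mul (chr_int hc _) (hi _), r_chr hc]

theorem finrank_jn {c : J → E} (e : z.y q = scl c (z.y q')) (h' : NZ (z.y q')) {κ : J → ℕ}
    (hv : ∃ σ ∈ z.V κ, σ q ≠ chr c κ * σ q') :
    finrank E ((jn z q q').V κ) + 1 = finrank E (z.V κ) := by
  obtain ⟨σ, hσ, hne⟩ := hv
  let L : (I → E) →ₗ[E] E := LinearMap.proj q - chr c κ • LinearMap.proj q'
  have h1 := finrank_map_add L (z.V κ)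
  have h2 : (z.V κ).map L = ⊤ := eq_top_iff.2 fun a _ =>
    ⟨(a / (σ q - chr c κ * σ q')) • σ, Submodule.smul_mem _ _ hσ, by
      have := sub_ne_zero.2 hne
      simp only [L, LinearMap.sub_apply, LinearMap.smul_apply, LinearMap.proj_apply, Pi.smul_apply,
        smul_eq_mul]
      field_simp⟩
  have h3 : (jn z q q').V κ = z.V κ ⊓ LinearMap.ker L := Submodule.ext fun σ => by
    rw [mem_jn e h']; exact and_congr_right fun _ => sub_eq_zero.symm
  rw [h2, finrank_top, finrank_self] at h1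
  rw [h3]; omega

/-- gluing commutes with reduction if some reduced section separates the two points -/
theorem jn_red (hP : Par (z.y q) (z.y q')) (h : Prim p.V (z.y q)) (h' : Prim p.V (z.y q'))
    {κ : J → ℕ} (hv : ∃ σ ∈ (z.red0 p).V κ, σ q ≠ 0 ∧ σ q' = 0) :
    ((jn z q q').red0 p).V κ = (jn (z.red0 p) q q').V κ := by
  refine redS_eq_of_le (redS_agr_le hP h h' κ) ?_
  obtain ⟨c, -, e⟩ := id hP
  obtain ⟨c', -, e'⟩ := hP.red h h'
  obtain ⟨σ, hσ, h1, h2⟩ := hv
  have h3 := finrank_jn (z := z.red0 p) e' (Prim.nz_red h') ⟨σ, hσ, by rwa [h2, mul_zero]⟩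
  have h4 : finrank E' ((z.red0 p).V κ) = finrank E (z.V κ) := finrank_redS p _
  by_cases hv : ∃ σ ∈ z.V κ, σ q ≠ chr c κ * σ q'
  · have := finrank_jn e (Prim.nz h') hv
    omega
  · push Not at hv
    have : (jn z q q').V κ = z.V κ :=
      Submodule.ext fun σ => by rw [mem_jn e (Prim.nz h')]; exact and_iff_left_of_imp (hv σ)
    rw [this]; omega

/-- the obstruction space of the glued datum commutes with reduction -/
theorem Eb_jn_red (hp : Lc p) (hP : Par (z.y q) (z.y q')) (h : Prim p.V (z.y q))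
    (h' : Prim p.V (z.y q')) (hO : T.On (z.y q))
    (hr : finrank E (T.Nm (z.y q)) ≤ finrank E' (T.Nm (redP p (z.y q))))
    (hE : redS p (z.Eb T) = (z.red0 p).Eb T) (hv : EV T (z.red0 p) q q') :
    redS p ((jn z q q').Eb T) = (jn (z.red0 p) q q').Eb T := by
  obtain ⟨c, -, e⟩ := id hP
  have hc := par_int h h' e
  have e' : (z.red0 p).y q = scl (rv p c) ((z.red0 p).y q') :=
    (congrArg (redP p) e).trans (red_scl (Prim.int h') hc)
  refine redS_eq_of_le (redS_le.2 fun σ hσ hi => (mem_Eb_jn e' (Prim.nz_red h')).2 ?_) ?_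
  · obtain ⟨h1, h2⟩ := (mem_Eb_jn e (Prim.nz h')).1 hσ
    refine ⟨hE ▸ mem_redS h1 hi, fun α => ?_⟩
    simp only [rv]
    rw [h2, Pl.r_mul (chr_int hc _) (hi _), r_chr hc]
  · have h1 := finrank_Eb_jn (z := z.red0 p) (hP.red h h') (Prim.nz_red h')
      (on_red hp T (Prim.int h) hO) hv
    have h2 := finrank_map_add (pr' E _ _) (EE T z q q')
    rw [ker_pr_EE hP (Prim.nz h') hO, finrank_EE,
      ← (Submodule.equivMapOfInjective _ (il_injective _ _) _).finrank_eq] at h2
    have h3 : finrank E ((EE T z q q').map (pr' E _ _)) ≤ dimP io := by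
      rw [← finrank_TP hP (Prim.nz h')]
      refine Submodule.finrank_mono ?_
      rintro _ ⟨u, ⟨-, a, b, -, -, h3⟩, rfl⟩; exact ⟨(a, b), h3.symm⟩
    have h4 := finrank_TY T hP (Prim.nz h') hO
    have h5 := finrank_redS p (z.Eb T)
    rw [hE] at h5
    change _ + finrank E' (T.Nm (redP p (z.y q))) = _ at h1
    omega

/-- pairs commute with reduction -/
theorem pair_red0 (z₁ : Cfg io I₁ E) (z₂ : Cfg io I₂ E) :
    (pair z₁ z₂).red0 p = pair (z₁.red0 p) (z₂.red0 p) := by
  have hf : ∀ {K : Type} [Field K] [Algebra ℂ K] (z₁ : Cfg io I₁ K) (z₂ : Cfg io I₂ K) (κ : J → ℕ),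
      finrank K ((pair z₁ z₂).V κ) = finrank K (z₁.V κ) + finrank K (z₂.V κ) := by
    intro K _ _ z₁ z₂ κ
    rw [← finrank_prod]
    exact LinearEquiv.finrank_eq
      { toFun := fun σ => (⟨_, σ.2.1⟩, ⟨_, σ.2.2⟩)
        map_add' := fun _ _ => rfl
        map_smul' := fun _ _ => rfl
        invFun := fun σ => ⟨Sum.elim σ.1.1 σ.2.1, σ.1.2, σ.2.2⟩
        left_inv := fun σ => Subtype.ext (funext fun x => by rcases x with q | q <;> rfl)
        right_inv := fun _ => rfl }
  unfold Cfg.red0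
  congr 1
  · funext x; rcases x with q | q <;> rfl
  · funext κ
    refine redS_eq_of_le (redS_le.2 fun σ hσ hi =>
      ⟨mem_redS hσ.1 fun _ => hi _, mem_redS hσ.2 fun _ => hi _⟩) ?_
    rw [hf]
    exact (hf (z₁.red0 p) (z₂.red0 p) κ).le.trans (add_le_add (finrank_redS p _).le
      (finrank_redS p _).le)

theorem Eb_pair_red {z₁ : Cfg io I₁ E} {z₂ : Cfg io I₂ E}
    (h₁ : redS p (z₁.Eb T) = (z₁.red0 p).Eb T) (h₂ : redS p (z₂.Eb T) = (z₂.red0 p).Eb T) :
    redS p ((pair z₁ z₂).Eb T) = ((pair z₁ z₂).red0 p).Eb T := by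
  rw [pair_red0]
  refine redS_eq_of_le (redS_le.2 fun σ hσ hi => mem_Eb_pair.2
    ⟨h₁ ▸ mem_redS (mem_Eb_pair.1 hσ).1 fun _ => hi _,
      h₂ ▸ mem_redS (mem_Eb_pair.1 hσ).2 fun _ => hi _⟩) ?_
  rw [finrank_Eb_pair, finrank_Eb_pair, ← h₁, ← h₂, finrank_redS, finrank_redS]

/-- where `δ` vanishes the two points have the same reduction -/
theorem par_red_of_dl {y y' : Pnt io E} (h : Prim p.V y) (h' : Prim p.V y')
    (hd : ∀ x, p.V.v (dl y y' x) < 1) : Par (redP p y) (redP p y') := by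
  rw [← dl_eq_zero (Prim.nz_red h) (Prim.nz_red h')]
  exact (r_wg (Prim.int h) (Prim.int h')).symm.trans (funext fun x =>
    (Pl.r_eq_zero (RZ.le_one_iff.1 (hd x).le)).2 (hd x))

theorem taylor_val {σ : Type*} [Fintype σ] (V : RZ ℂ E) {y τ : σ → E} (hy : ∀ v, y v ∈ V.1)
    (hτ : ∀ v, τ v ∈ V.1) {t : E} (ht : t ∈ V.1) (f : MvPolynomial σ ℂ) : ∃ r ∈ V.1,
      aeval (fun v => y v + t * τ v) f =
        aeval y f + t * ∑ v, aeval y (pderiv v f) * τ v + t ^ 2 * r := by
  classical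
  induction f using MvPolynomial.induction_on with
  | C c => exact ⟨0, zero_mem _, by simp⟩
  | add a b ha hb =>
    obtain ⟨r, hr, e⟩ := ha
    obtain ⟨r', hr', e'⟩ := hb
    refine ⟨r + r', add_mem hr hr', ?_⟩
    simp only [map_add, e, e', add_mul, Finset.sum_add_distrib]; ring
  | mul_X a n ha =>
    obtain ⟨r, hr, e⟩ := ha
    refine ⟨r * y n + (∑ v, aeval y (pderiv v a) * τ v) * τ n + t * r * τ n,
      add_mem (add_mem (mul_mem hr (hy n)) (mul_mem (sum_mem fun v _ =>
        mul_mem (aeval_int V hy _) (hτ v)) (hτ n))) (mul_mem (mul_mem ht hr) (hτ n)), ?_⟩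
    rw [map_mul, e]
    simp [Derivation.leibniz, add_mul, Finset.sum_add_distrib, Pi.single_apply,
      apply_ite, mul_assoc, ← Finset.mul_sum]
    ring

/-- **the direction of the section `(s, δ)` lies in `EE`** -/
theorem sd_mem_EE (hp : Lc p) (h : Prim p.V (z.y q)) (h' : Prim p.V (z.y q')) {u : E}
    (hu : 1 < p.V.v u) (hi : Int p fun x => u * sd T z q q' x)
    (hs : (fun x => p.r (u * z.sv T x)) ∈ (z.red0 p).Eb T) :
    (fun x => p.r (u * sd T z q q' x)) ∈ EE T (z.red0 p) q q' := by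
  have hu0 : u ≠ 0 := RZ.ne_zero_iff.1 (zero_lt_one.trans hu).ne'
  have hup : 0 < p.V.v u := RZ.pos hu0
  have ht1 : p.V.v u⁻¹ < 1 := by rw [map_inv₀]; exact inv_lt_one_of_one_lt₀ hu
  have ht : u⁻¹ ∈ p.V.1 := RZ.le_one_iff.1 ht1.le
  obtain ⟨l, hτ⟩ := exists_int_wg h' (u • vec (z.y q)) (γ := 1) fun x => by
    rw [map_smul]; exact RZ.le_one_iff.2 (hi (Sum.inr x))
  set τ := u • vec (z.y q) - vsc l (vec (z.y q')) with hτd
  have hτi : Int p τ := fun v => RZ.le_one_iff.1 (hτ v)
  set c : J → E := fun j => u⁻¹ * l j with hcd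
  have e1 : ∀ v, vec (scl c (z.y q')) v = vec (z.y q) v + -u⁻¹ * τ v := fun v => by
    simp only [hτd, hcd, vec_scl, vsc_apply, Pi.sub_apply, Pi.smul_apply, smul_eq_mul]
    field_simp; ring
  have hsi : Int p (vec (scl c (z.y q'))) := fun v => by
    rw [e1]; exact add_mem (Prim.int h v) (mul_mem (neg_mem ht) (hτi v))
  have hc : Int p c := fun j => by
    obtain ⟨i, hi⟩ := (h' j).2
    have := RZ.le_one_iff.2 (hsi ⟨j, i⟩)
    rw [vec, scl, map_mul, hi, mul_one] at this
    exact RZ.le_one_iff.1 this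
  have hr0 : p.r u⁻¹ = 0 := (Pl.r_eq_zero ht).2 ht1
  have e' : (z.red0 p).y q = scl (rv p c) ((z.red0 p).y q') := by
    refine Eq.trans ?_ (red_scl (Prim.int h') hc)
    funext j i
    change p.r (vec (z.y q) ⟨j, i⟩) = p.r (vec (scl c (z.y q')) ⟨j, i⟩)
    rw [e1, Pl.r_add (Prim.int h _) (mul_mem (neg_mem ht) (hτi _)),
      Pl.r_mul (neg_mem ht) (hτi _), Pl.r_neg ht, hr0, neg_zero, zero_mul, add_zero]
  refine (mem_EE e').2 ⟨hs, rv p τ, fun α => ?_, ?_⟩
  · obtain ⟨r, hr, e⟩ := taylor_val p.V (Prim.int h) hτi (neg_mem ht) (T.F α)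
    rw [← funext e1, ← jac_apply] at e
    have e2 : aeval (vec (scl c (z.y q'))) (T.F α) = chr c (T.k α) * z.sv T (α, q') :=
      pv_scl (T.hom α) c (z.y q')
    have e3 : u * z.sv T (α, q) - chr c (T.k α) * (u * z.sv T (α, q')) =
        T.jac (z.y q) τ α - u⁻¹ * r := by
      rw [mul_left_comm, ← e2, e]
      change u * aeval (vec (z.y q)) (T.F α) - _ = _
      field_simp; ring
    have h1 : u * z.sv T (α, q) ∈ p.V.1 := hi (Sum.inl (α, q))
    have h2 : u * z.sv T (α, q') ∈ p.V.1 := hi (Sum.inl (α, q'))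
    have e4 := congrArg p.r e3
    rw [Pl.r_sub h1 (mul_mem (chr_int hc _) h2), Pl.r_mul (chr_int hc _) h2, r_chr hc,
      Pl.r_sub (jac_int T (Prim.int h) hτi α) (mul_mem ht hr), Pl.r_mul ht hr, hr0, zero_mul,
      sub_zero] at e4
    exact e4.trans (congrFun (r_jac hp T (Prim.int h) hτi) α)
  · have := r_wg hτi (Prim.int h')
    rw [hτd, wg_sub_vsc, map_smul] at this
    exact this

end Crest.Agent.X262.Node22
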