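import Crest.Agent.X262.Node22.Chn
import Crest.Agent.X262.Vb.Loc

/-!
# Row 262, road B (helper22): node algebra along places

* `Nd T z q q'` : the rank conditions for a family of configurations with a node at `q, q'`;
* `tF`, `pF`, `jF` : Chern polynomials of `T_Y`, `T_P` and of the glued obstruction space;
* they live on the supports, satisfy `jF * pF = tF * cpF`, and have the expected roots.
-/

set_option autoImplicit false
set_option linter.unusedSectionVars false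

noncomputable section

namespace Crest.Agent.X262.Node22

open Crest.Agent.X277 Crest.Agent.X277.BD Crest.Agent.X277.Pst Crest.Agent.X277.BD.Cyc
open Crest.Agent.X262.Vb Crest.Agent.X262.Hb Polynomial Module
open Crest.Agent.X262.Sym65 (PF PX Liv LivX Sup Cl cf cl_sup sup_inf)

variable {J : Type} [Fintype J] [DecidableEq J] {io : J → Type} [∀ j, Fintype (io j)]
  [∀ j, DecidableEq (io j)] {A : Type} [Fintype A] {K E L : Type} [Field K] [Algebra ℂ K]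
  [Field E] [Algebra ℂ E] [Field L] [Algebra ℂ L] {I : Type} [Fintype I]
  {B : Th} {T : Tgt io A} {c N : ℕ} {z z' : Cfg io I K} {q q' : I}

/-- a natural function of the configuration lives on `Z` -/
theorem livX_of (hz : z.NZ) (N : ℕ) {Z : Set (RZ ℂ K)} (hc : Cl Z)
    (F : ∀ (E : Type) [Field E] [Algebra ℂ E], Cfg io I E → (B.H E)[X])
    (G : ∀ (E : Type) [Field E] [Algebra ℂ E], Cfg io I E → Prop)
    (hZ : ∀ (E : Type) [Field E] [Algebra ℂ E] (p : LP K E), p.V ∈ Z → G E (z.red p.toPl))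
    (hG : ∀ (E : Type) [Field E] [Algebra ℂ E] [Algebra.EssFiniteType ℂ E] (w w' : Cfg io I E),
      Cfg.GeqN N w w' → w.NZ → G E w' → G E w ∧ F E w' = F E w)
    (hm : ∀ (E₀ E : Type) [Field E₀] [Algebra ℂ E₀] [Algebra.EssFiniteType ℂ E₀] [Field E]
      [Algebra ℂ E] [Algebra.EssFiniteType ℂ E] (α : E₀ →ₐ[ℂ] E) (w : Cfg io I E₀), w.NZ →
      G E (w.map α) → F E (w.map α) = (F E₀ w).map (B.pb (LP.hom α) : B.H E₀ →+* B.H E))
    (hr : ∀ (E L : Type) [Field E] [Algebra ℂ E] [Algebra.EssFiniteType ℂ E] [Field L]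
      [Algebra ℂ L] [Algebra.EssFiniteType ℂ L] (p : LP K E) (r : LP E L) (w : Cfg io I E),
      p.V ∈ Z → w = (z.red p.toPl).gau ((z.red p.toPl).nrm r.V) → w.Pr r.V → G E w →
      G L (w.red0 r.toPl) → F L (w.red0 r.toPl) = (F E w).map (B.pb r : B.H E →+* B.H L)) :
    LivX B Z fun E _ _ p => F E (z.red p.toPl) where
  nat E L _ _ _ _ _ _ p r hp := by
    have h1 := hG L _ _ ((Cfg.red_comp p r hz).symm.geqN N) ((hz.red _).red _)
      (hZ L (p.comp r) (hc _ _ (Pl.cm_le _) hp))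
    have h2 := hG E _ _ ((Cfg.geq_gau _ (Cfg.nrm_ne r.V (z.red p.toPl))).symm.geqN N)
      ((hz.red _).gau (Cfg.nrm_ne r.V _)) (hZ E p hp)
    rw [h1.2, h2.2]
    exact hr E L p r _ hp rfl (Cfg.pr_nrm (hz.red _) _) h2.1 h1.1
  loc := lcX_of hz N F fun E₀ E _ _ _ _ _ _ z₀ α p hp h0 h => by
    have h1 := hG E _ _ h (h0.map α) (hZ E p hp)
    rw [h1.2, hm E₀ E α z₀ h0 h1.1]

theorem geqN_y (h : Cfg.GeqN N z z') :
    ∃ c : I → J → K, (∀ q j, c q j ≠ 0) ∧ ∀ q, z'.y q = scl (c q) (z.y q) :=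
  h.imp fun _ h => ⟨h.1, congrFun h.2.1⟩

theorem Par.geqN (hP : Par (z.y q) (z.y q')) (h : Cfg.GeqN N z z') : Par (z'.y q) (z'.y q') := by
  obtain ⟨c, hc, e⟩ := geqN_y h
  rw [e, e]
  exact hP.scl (hc q) (hc q')

theorem jn_geqN (h : Cfg.GeqN N z z') : Cfg.GeqN N (jn z q q') (jn z' q q') := by
  obtain ⟨c, hc, h1, h2⟩ := h
  refine ⟨c, hc, h1, fun κ hκ => ?_⟩
  rw [jn_gau hc]
  change z'.V κ ⊓ agr z'.y q q' κ = (z.gau c).V κ ⊓ agr (z.gau c).y q q' κ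
  rw [h1, h2 κ hκ]

theorem Eb_congr (h1 : z'.y = z.y) (h2 : ∀ a, z'.V (T.k a) = z.V (T.k a)) : z'.Eb T = z.Eb T :=
  Submodule.ext fun σ => by simp only [mem_Eb, h1, h2]

theorem EV.geqN (hv : EV T z q q') (hk : ∀ a j, T.k a j ≤ N) (h : Cfg.GeqN N z z') :
    EV T z' q q' := by
  obtain ⟨c, hc, h1, h2⟩ := h
  have := hv.gau hc
  rwa [EV, ← Eb_congr h1 fun a => h2 _ (hk a), ← h1] at this

theorem EV.geq (hv : EV T z q q') (h : Cfg.Geq z z') : EV T z' q q' := by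
  obtain ⟨c, hc, rfl⟩ := h
  exact hv.gau hc

theorem par_of_map (α : K →ₐ[ℂ] E) {y y' : Pnt io K} (h : NZ y) (h' : NZ y')
    (hP : Par (mapP α y) (mapP α y')) : Par y y' := by
  rw [← dl_eq_zero h h']
  rw [← dl_eq_zero ((nz_map α).2 h) ((nz_map α).2 h')] at hP
  funext x
  refine (map_eq_zero α).1 (Eq.trans ?_ (congrFun hP x))
  simp only [dl, wg_apply, vec, mapP, map_sub, map_mul]

/-! ### the divisor of the diagonal -/

section Dh

variable {p : LP K E}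

theorem dh_nrm (hz : z.NZ) (V : RZ ℂ K) :
    dh ((z.gau (z.nrm V)).y q) ((z.gau (z.nrm V)).y q') = dh (z.y q) (z.y q') :=
  dh_scl (hz q) (hz q') (nrm_ne V z q) (nrm_ne V z q')

theorem dl_ne {y y' : Pnt io K} {V : RZ ℂ K} (h : (dh y y').val V ≠ 1) : dl y y' ≠ 0 :=
  fun h0 => h (by rw [dh_eq, h0, sz_zero, neg_zero, val_zero])

theorem dl_red (hz : z.NZ) (p : LP K E) : dl ((z.red p.toPl).y q) ((z.red p.toPl).y q') =
    Hb.rv p (dl ((z.gau (z.nrm p.V)).y q) ((z.gau (z.nrm p.V)).y q')) :=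
  (r_wg (Prim.int (prim_nrm p.V (hz q))) (Prim.int (prim_nrm p.V (hz q')))).symm

theorem dl_red_eq_zero (hz : z.NZ) (hP : ¬Par (z.y q) (z.y q')) :
    dl ((z.red p.toPl).y q) ((z.red p.toPl).y q') = 0 ↔ p.V ∈ Sup (dh (z.y q) (z.y q')) := by
  have h := prim_nrm p.V (hz q)
  have h' := prim_nrm p.V (hz q')
  have h0 : dl ((z.gau (z.nrm p.V)).y q) ((z.gau (z.nrm p.V)).y q') ≠ 0 := fun h0 =>
    hP (((dl_eq_zero h.nz h'.nz).1 h0).geqN
      ((Cfg.geq_gau z (nrm_ne p.V z)).symm.geqN 0))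
  rw [dl_red hz, rv_eq_zero (val_da h h') ((itg_iff (val_da h h')).2 (nm_dl_le _)), Sup,
    Set.mem_ofPred_eq, ← dh_nrm hz p.V, val_dh h0, Ne, inv_eq_one, (nm_dl_le _).lt_iff_ne]

theorem par_of_sup (hz : z.NZ) (hp : p.V ∈ Sup (dh (z.y q) (z.y q'))) :
    Par ((z.red p.toPl).y q) ((z.red p.toPl).y q') :=
  (dl_eq_zero (hz.red _ q) (hz.red _ q')).1
    ((dl_red_eq_zero hz fun h => dl_ne hp ((dl_eq_zero (hz q) (hz q')).2 h)).2 hp)

theorem dh_red (hz : z.NZ) (hP : ¬Par (z.y q) (z.y q'))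
    (hp : (dh (z.y q) (z.y q')).val p.V = 1) :
    dh ((z.red p.toPl).y q) ((z.red p.toPl).y q') = p.res (dh (z.y q) (z.y q')) := by
  have h := prim_nrm p.V (hz q)
  have h' := prim_nrm p.V (hz q')
  have h0 : dl ((z.gau (z.nrm p.V)).y q) ((z.gau (z.nrm p.V)).y q') ≠ 0 := fun h0 =>
    hP (((dl_eq_zero h.nz h'.nz).1 h0).geqN
      ((Cfg.geq_gau z (nrm_ne p.V z)).symm.geqN 0))
  rw [← dh_nrm hz p.V] at hp ⊢
  have h1 := inv_eq_one.1 ((val_dh h0 _).symm.trans hp)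
  rw [dh_eq ((z.gau (z.nrm p.V)).y q), Pl.res_neg (by rw [val_sz h0, h1]),
    res_sz p.toPl (val_da h h') h1, ← da_red h h', dh_eq, dl_red hz]
  rfl

end Dh

/-! ### the three families -/

variable (B T) in
/-- the Chern polynomial of the tangent space of the target -/
def tF (z : Cfg io I K) (q : I) : PX B K := fun _ _ _ p => cT B T ((z.red p.toPl).y q)

variable (B) in
/-- the Chern polynomial of the tangent space of the ambient space -/
def pF (z : Cfg io I K) (q q' : I) : PX B K := fun _ _ _ p =>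
  B.cp (da ((z.red p.toPl).y q) ((z.red p.toPl).y q'))
    (TP ((z.red p.toPl).y q) ((z.red p.toPl).y q'))

variable (B T) in
/-- the Chern polynomial of the glued obstruction space -/
def jF (z : Cfg io I K) (q q' : I) : PX B K := fun _ _ _ p => cpz B T (jn (z.red p.toPl) q q')

variable (T) in
/-- the rank conditions at a node -/
structure Nd (z : Cfg io I K) (q q' : I) : Prop where
  rk : Rk T z
  ev : ∀ {E : Type} [Field E] [Algebra ℂ E] (p : LP K E), (z.red p.toPl).On T →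
    EV T (z.red p.toPl) q q'
  sep : ∀ {E : Type} [Field E] [Algebra ℂ E] (p : LP K E) (κ : J → ℕ),
    ∃ σ ∈ (z.red p.toPl).V κ, σ q ≠ 0 ∧ σ q' = 0

theorem livX_tF (hB : B.Ax) (hR : Rg T c) (hz : z.NZ) (q : I) :
    LivX B (Zon T z) (tF B T z q) :=
  livX_of hz 0 (cl_Zon hz) (fun _ _ _ w => cT B T (w.y q)) (fun _ _ _ w => w.On T)
    (fun _ _ _ _ hp => (mem_Zon hz).1 hp)
    (fun _ _ _ _ w w' h hw hO => ⟨h.on.1 hO, by
      obtain ⟨c, hc, e⟩ := geqN_y h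
      rw [e, cT_scl hB (hw q) (h.on.1 hO q) (hc q)]⟩)
    (fun _ _ _ _ _ _ _ _ α w hw hO => by
      rw [Cfg.map_y, ← redP_hom]
      exact cT_red hB hR _ (prim_hom α (hw q)) ((Cfg.on_map T α).1 hO q))
    fun _ _ _ _ _ _ _ _ _ r w _ _ hw hO _ => cT_red hB hR r (hw q) (hO q)

theorem livX_pF (hB : B.Ax) (hz : z.NZ) (q q' : I) :
    LivX B (Sup (dh (z.y q) (z.y q'))) (pF B z q q') :=
  livX_of hz 0 (cl_sup _) (fun _ _ _ w => B.cp (da (w.y q) (w.y q')) (TP (w.y q) (w.y q')))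
    (fun _ _ _ w => Par (w.y q) (w.y q')) (fun _ _ _ _ hp => par_of_sup hz hp)
    (fun _ _ _ _ w w' h hw hP => ⟨hP.geqN h.symm, by
      obtain ⟨c, hc, e⟩ := geqN_y h
      rw [e, e, cp_TP_scl hB (hw q) (hw q') (hc q) (hc q')]⟩)
    (fun _ _ _ _ _ _ _ _ α w hw hP => by
      rw [Cfg.map_y, Cfg.map_y, ← redP_hom, ← redP_hom]
      exact cp_TP_red hB _ (par_of_map α (hw q) (hw q') hP) (prim_hom α (hw q))
        (prim_hom α (hw q')))
    fun _ _ _ _ _ _ _ _ _ r w _ _ hw hP _ => cp_TP_red hB r hP (hw q) (hw q')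

theorem cpz_jn_red0 (hB : B.Ax) (hR : Rg T c) [Algebra.EssFiniteType ℂ K]
    [Algebra.EssFiniteType ℂ E] {p : LP K E} (hz : z.Pr p.V) (hO : z.On T)
    (hP : Par (z.y q) (z.y q')) (hE : (z.red0 p.toPl).Eb T = redS p.toPl (z.Eb T))
    (hv : EV T (z.red0 p.toPl) q q') : cpz B T (jn (z.red0 p.toPl) q q') =
      (cpz B T (jn z q q')).map (B.pb p : B.H K →+* B.H E) := by
  rw [cpz, cpz, hB.cp_rd (a := (jn z q q').ea T) (hz.val_ea T), rd_eq,
    Eb_jn_red p.lnr hP (hz q) (hz q') (hO q) (hR.red p.lnr (hz q) (hO q)) hE.symm hv]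
  exact congrArg (B.cp · _) (Cfg.ea_red0 T hz)

theorem Nd.livX (h : Nd T z q q') (hB : B.Ax) (hR : Rg T c) :
    LivX B (Zon T z ∩ Sup (dh (z.y q) (z.y q'))) (jF B T z q q') := by
  obtain ⟨N, hN⟩ := exists_bd T
  have hz := h.rk.nz
  exact livX_of hz N ((cl_Zon hz).inter (cl_sup _)) (fun _ _ _ w => cpz B T (jn w q q'))
    (fun _ _ _ w => w.On T ∧ Par (w.y q) (w.y q') ∧ EV T w q q')
    (fun _ _ _ p hp => ⟨(mem_Zon hz).1 hp.1, par_of_sup hz hp.2, h.ev p ((mem_Zon hz).1 hp.1)⟩)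
    (fun _ _ _ _ w w' h hw hG => ⟨⟨h.on.1 hG.1, hG.2.1.geqN h.symm, hG.2.2.geqN hN h.symm⟩,
      cpz_geqN hB hN (jn_geqN h) hw⟩)
    (fun _ _ _ _ _ _ _ _ α w hw hG => by
      rw [← Cfg.red0_hom] at hG ⊢
      exact cpz_jn_red0 hB hR (Cfg.pr_hom α hw) ((Cfg.on_map T α).1 (Cfg.red0_hom α w ▸ hG.1))
        (par_of_map α (hw q) (hw q') (by simpa only [Cfg.red0_hom, Cfg.map_y] using hG.2.1))
        (by rw [Cfg.red0_hom, Cfg.Eb_map, redS_hom]) hG.2.2)
    fun _ _ _ _ _ _ _ _ p r w hp e hw hG hG' => cpz_jn_red0 hB hR hw hG.1 hG.2.1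
      (by subst e; exact h.rk.eb p r ((mem_Zon hz).1 hp.1)) hG'.2.2

/-- the two filtrations along places -/
theorem Nd.mul (h : Nd T z q q') (hB : B.Ax) (hR : Rg T c) [Algebra.EssFiniteType ℂ E]
    {p : LP K E} (hO : (z.red p.toPl).On T) (hp : p.V ∈ Sup (dh (z.y q) (z.y q'))) :
    pF B z q q' E p * jF B T z q q' E p = cpF B T z E p * tF B T z q E p := by
  have hz := h.rk.nz
  rw [mul_comm, mul_comm (cpF B T z E p)]
  exact cp_node hB hR (hz.red _) hO (par_of_sup hz hp) (h.ev p hO)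
    (fun V => h.rk.eb p (LP.at V) hO) fun V =>
      (h.ev (p.comp (LP.at V)) (((Cfg.red_comp p (LP.at V) hz).on T).1
        (hO.red T (lnr_plV V) (hz.red _)))).geq (Cfg.red_comp p (LP.at V) hz)

/-- gluing commutes with reduction -/
theorem Nd.jn_red (h : Nd T z q q') {p : LP K E} (hp : p.V ∈ Sup (dh (z.y q) (z.y q')))
    (r : LP E L) :
    (jn (z.red p.toPl) q q').red r.toPl = jn ((z.red p.toPl).red r.toPl) q q' := by
  have hz := h.rk.nz
  refine Cfg.ext (fun _ => rfl) fun κ => jn_red' (par_of_sup hz hp) (hz.red _ q) (hz.red _ q') ?_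
  obtain ⟨σ, hσ, h1, h2⟩ := h.sep (p.comp r) κ
  obtain ⟨c, hc, e⟩ := Cfg.red_comp p r hz
  refine ⟨fun x => chr (c x) κ * σ x, e ▸ (mul_mem_gau hc).2 hσ,
    mul_ne_zero (chr_ne (hc q) κ) h1, by simp only [h2, mul_zero]⟩

/-! ### roots -/

theorem v_le_nm {P : Type} [Fintype P] {a : P → BD ℂ K} {V : RZ ℂ K} (ha : ∀ i, (a i).val V = 1)
    (s : P → K) (i : P) : V.v (s i) ≤ nm a V s := by simpa only [ha, mul_one] using le_nm a V s i

section Root

variable (hB : B.Ax) [Algebra.EssFiniteType ℂ E] {p : LP K E}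
include hB

theorem root_dh (hz : z.NZ) (hp : p.V ∈ Sup (dh (z.y q) (z.y q'))) {u : K}
    (hu : p.V.v u = (dh (z.y q) (z.y q')).val p.V) {U : Submodule E (Dg io → E)}
    (hU : (fun x => p.r (u * dl ((z.gau (z.nrm p.V)).y q) ((z.gau (z.nrm p.V)).y q') x)) ∈ U) :
    (B.cp (da ((z.red p.toPl).y q) ((z.red p.toPl).y q')) U).eval
      (cf B (dh (z.y q) (z.y q')) E p) = 0 := by
  have h := prim_nrm p.V (hz q)
  have h' := prim_nrm p.V (hz q')
  have h0 := dl_ne (V := p.V) (by rw [dh_nrm hz p.V]; exact hp)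
  have := eval_dir hB p (val_da h h') h0 (by rw [hu, ← dh_nrm hz p.V, val_dh h0]) hU
  rw [← da_red h h', ← dh_eq, dh_nrm hz] at this
  exact this

omit hB in
theorem int_dl (hz : z.NZ) (hp : p.V ∈ Sup (dh (z.y q) (z.y q'))) {u : K}
    (x : Dg io) : p.V.v (u * dl ((z.gau (z.nrm p.V)).y q) ((z.gau (z.nrm p.V)).y q') x) ≤
      p.V.v u / (dh (z.y q) (z.y q')).val p.V := by
  have h0 := dl_ne (V := p.V) (by rw [dh_nrm hz p.V]; exact hp)
  rw [← dh_nrm hz p.V, val_dh h0, div_inv_eq_mul, map_mul]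
  exact mul_le_mul_right (v_le_nm (val_da (prim_nrm p.V (hz q)) (prim_nrm p.V (hz q'))) _ x) _

omit hB in
theorem int_sv (hz : z.NZ) (hO : ¬z.On T) {u : K} (x : A × I) :
    p.V.v (u * (z.gau (z.nrm p.V)).sv T x) ≤ p.V.v u / (z.dv T).val p.V := by
  rw [← Cfg.dv_gau T hz (nrm_ne p.V z), Cfg.val_dv T (mt (Cfg.on_gau T (nrm_ne p.V z)).1 hO),
    div_inv_eq_mul, map_mul]
  exact mul_le_mul_right (v_le_nm ((Cfg.pr_nrm hz p.V).val_ea T) _ x) _

/-- the class of the diagonal divisor is a root for the ambient tangent space -/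
theorem root_pF (hz : z.NZ) (hp : p.V ∈ Sup (dh (z.y q) (z.y q'))) :
    (pF B z q q' E p).eval (cf B (dh (z.y q) (z.y q')) E p) = 0 := by
  refine root_dh hB hz hp (v_gen _ _) ?_
  have h' := prim_nrm p.V (hz q')
  obtain ⟨l, hl⟩ := exists_int_wg h' ((dh (z.y q) (z.y q')).gen p.V • vec ((z.gau (z.nrm p.V)).y q))
    (γ := 1) fun x => by
      rw [map_smul]
      exact (int_dl hz hp x).trans_eq (by rw [v_gen, div_self (val_ne _ _)])
  have := r_wg (p := p.toPl) (fun v => RZ.le_one_iff.1 (hl v)) (Prim.int h')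
  rw [wg_sub_vsc, map_smul] at this
  exact (mem_TP (par_of_sup hz hp)).2 ⟨_, this.symm⟩

omit hB in
theorem Nd.dir (h : Nd T z q q') (hO : ¬z.On T) (hp : p.V ∈ Sup (dh (z.y q) (z.y q')))
    (hD : p.V ∈ Sup (z.dv T)) {u : K} (h0 : 1 < p.V.v u) (h1 : p.V.v u ≤ (z.dv T).val p.V)
    (h2 : p.V.v u ≤ (dh (z.y q) (z.y q')).val p.V) :
    (fun x => p.r (u * sd T (z.gau (z.nrm p.V)) q q' x)) ∈ EE T (z.red p.toPl) q q' := by
  have hz := h.rk.nz
  have h3 : ∀ x, u * (z.gau (z.nrm p.V)).sv T x ∈ p.V.1 := fun x =>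
    RZ.le_one_iff.1 ((int_sv hz hO x).trans ((div_le_one₀ (val_pos _ _)).2 h1))
  refine sd_mem_EE p.lnr (prim_nrm p.V (hz q)) (prim_nrm p.V (hz q')) h0 ?_
    (h.rk.sv p (Cfg.on_red_of T p.lnr hz hD) u h3)
  rintro (x | x)
  · exact h3 x
  · exact RZ.le_one_iff.1 ((int_dl hz hp x).trans ((div_le_one₀ (val_pos _ _)).2 h2))

/-- where the diagonal divisor is the smaller one, its class is a root for `T_Y` -/
theorem Nd.root_tF (h : Nd T z q q') (hO : ¬z.On T) (hp : p.V ∈ Sup (dh (z.y q) (z.y q')))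
    (hlt : (dh (z.y q) (z.y q')).val p.V < (z.dv T).val p.V) :
    (tF B T z q E p).eval (cf B (dh (z.y q) (z.y q')) E p) = 0 := by
  have hz := h.rk.nz
  have h1 : 1 < (dh (z.y q) (z.y q')).val p.V := lt_of_le_of_ne (dh_nonneg _ _ p.V) (Ne.symm hp)
  have hD : p.V ∈ Sup (z.dv T) := (h1.trans hlt).ne'
  have hu := v_gen (dh (z.y q) (z.y q')) p.V
  have h2 := h.dir hO hp hD (hu ▸ h1) (hu ▸ hlt.le) hu.le
  have h3 := ker_pl_EE.le ⟨h2, LinearMap.mem_ker.2 (funext fun x => (Pl.r_eq_zero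
    (RZ.le_one_iff.1 ((int_sv hz hO x).trans ((div_le_one₀ (val_pos _ _)).2 (hu ▸ hlt.le))))).2
    ((int_sv hz hO x).trans_lt ((div_lt_one₀ (val_pos _ _)).2 (hu ▸ hlt))))⟩
  obtain ⟨w, hw, e⟩ := h3
  rw [tF, ← cp_TY hB (par_of_sup hz hp) (hz.red _ q') (Cfg.on_red_of T p.lnr hz hD q)]
  refine root_dh hB hz hp hu ?_
  exact (funext fun x => congrFun e (Sum.inr x) : w = _) ▸ hw

/-- where the divisor of the equations is the smaller one, its class is a root for the glued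
obstruction space -/
theorem Nd.root_jF (h : Nd T z q q') (hD : p.V ∈ Sup (z.dv T))
    (hlt : (z.dv T).val p.V < (dh (z.y q) (z.y q')).val p.V) :
    (jF B T z q q' E p).eval (cf B (z.dv T) E p) = 0 := by
  have hz := h.rk.nz
  have hO : ¬z.On T := fun h0 => hD (by rw [Cfg.dv_of_on T h0, val_zero])
  have h1 : 1 < (z.dv T).val p.V := lt_of_le_of_ne (Cfg.dv_nonneg T hz p.V) (Ne.symm hD)
  have hp : p.V ∈ Sup (dh (z.y q) (z.y q')) := (h1.trans hlt).ne'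
  have hu := v_gen (z.dv T) p.V
  have h2 := h.dir hO hp hD (hu ▸ h1) hu.le (hu ▸ hlt.le)
  have h3 := (ker_pr_EE (par_of_sup hz hp) (hz.red _ q') (Cfg.on_red_of T p.lnr hz hD q)).le
    ⟨h2, LinearMap.mem_ker.2 (funext fun x => (Pl.r_eq_zero
    (RZ.le_one_iff.1 ((int_dl hz hp x).trans ((div_le_one₀ (val_pos _ _)).2 (hu ▸ hlt.le))))).2
    ((int_dl hz hp x).trans_lt ((div_lt_one₀ (val_pos _ _)).2 (hu ▸ hlt))))⟩
  obtain ⟨w, hw, e⟩ := h3
  have hP := Cfg.pr_nrm hz p.V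
  have hO' := mt (Cfg.on_gau T (nrm_ne p.V z)).1 hO
  have hd := Cfg.dv_gau T hz (nrm_ne p.V z)
  have := eval_dir hB p (hP.val_ea T) (mt (Cfg.on_iff T).2 hO')
    (by rw [hu, ← hd, Cfg.val_dv T hO']) (U := (jn (z.red p.toPl) q q').Eb T)
    ((funext fun x => congrFun e (Sum.inl x) : w = _) ▸ hw)
  rw [← Cfg.ea_red0 T hP, ← Cfg.dv, hd] at this
  exact this

end Root

end Crest.Agent.X262.Node22
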