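import Crest.Agent.X262.Node22.Liv
import Crest.Agent.X262.Wd54.Defs
import Crest.Agent.X262.Tree87.Rank

/-!
# Row 262, road B (helper22): the two filtrations of `EE` give `Wd54.NodeStmt`
-/

set_option autoImplicit false
set_option linter.unusedSectionVars false

noncomputable section

namespace Crest.Agent.X262.Node22

open Crest.Agent.X277 Crest.Agent.X277.BD Crest.Agent.X277.Pst Crest.Agent.X277.BD.Cyc
open Crest.Agent.X262.Vb Crest.Agent.X262.Hb Polynomial Module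
open Crest.Agent.X262.Geo (od essFT_Rf)
open Crest.Agent.X262.Sym65 (PF PX Liv LivX Sup Cl cf cl_sup sup_inf sm i1 i2 qv TwoStmt i1_cf
  mem_sup)
open Crest.Agent.X262.Wd54 (vrd ful om NodeStmt)

variable {J : Type} [Fintype J] [DecidableEq J] {io : J → Type} [∀ j, Fintype (io j)]
  [∀ j, DecidableEq (io j)] {A : Type} [Fintype A] {K E : Type} [Field K] [Algebra ℂ K]
  [Field E] [Algebra ℂ E] {I I₁ I₂ M : Type} [Fintype I] [Fintype I₁] [Fintype I₂]
  {B : Th} {T : Tgt io A} {c : ℕ} {z : Cfg io I K} {q q' : I} {m : M → I} {Φ : MFam B io M}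

theorem eval_sub_eval {R : Type*} [CommRing R] (f : R[X]) (x : R) :
    f.eval 0 - f.eval x = x * (-f.divX).eval x := by
  conv_lhs => rw [← X_mul_divX_add f]
  simp only [eval_add, eval_mul, eval_X, eval_C, eval_neg]
  ring

theorem mul_ap (φ ψ : PF B K) (p : LP K E) : (φ * ψ) E p = φ E p * ψ E p := rfl

theorem zero_ap (p : LP K E) : (0 : PF B K) E p = 0 := rfl

theorem mul_apX (φ ψ : PX B K) (p : LP K E) : (φ * ψ) E p = φ E p * ψ E p := rfl

section Abs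

variable [Algebra.EssFiniteType ℂ K] (hB : B.Ax) (hR : Rg T c) (h : Nd T z q q')
  (hΦ : MCls B T Φ) (hO : ¬z.On T) (hP : ¬Par (z.y q) (z.y q'))
include hB hR h hΦ hO hP

open Classical in
/-- the first filtration: the class of the diagonal -/
theorem Nd.left : vrd B T z m Φ q q' = sm (z.dv T) fun V =>
    if (dh (z.y q) (z.y q')).val V = 1 then
      sm ((plV V).res (dh (z.y q) (z.y q'))) (i2 (qv (cpF B T z) (cf B (z.dv T)) *
        qv (tF B T z q) (cf B (dh (z.y q) (z.y q'))) * evF z m Φ) V)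
    else i1 (qv (cpF B T z) (cf B (z.dv T)) * Sym65.pv (tF B T z q) 0 * evF z m Φ) V := by
  have hz := h.rk.nz
  refine Vb.sm_congr (a := z.dv T) fun V hV hD => ?_
  have := essFT_Rf hV
  split_ifs with h1
  · rw [← i1_cf hB ((((h.rk.livX hB).qv (Liv.cf hB _)).mul
      ((livX_tF hB hR hz q).qv (Liv.cf hB _))).mul (liv_evF hΦ hz m)) hV (sup_sub hz hD) h1, i1]
    congr 1
    have h2 : ¬wdg ((z.red (plV V)).y q) ((z.red (plV V)).y q') = 0 :=
      mt (dl_red_eq_zero (p := LP.at V) hz hP).1 (not_not.2 h1)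
    have h3 : B.c1 (dh ((z.red (plV V)).y q) ((z.red (plV V)).y q')) =
        cf B (dh (z.y q) (z.y q')) _ (LP.at V) :=
      (congrArg B.c1 (dh_red (p := LP.at V) hz hP h1)).trans (hB.pb_c1_res (LP.at V) h1).symm
    rw [trm_eq, dgc, if_neg h2, eval_sub_eval, h3]
    simp only [mul_ap, qv, tF, LP.at_toPl]
    ring
  · rw [i1]
    congr 1
    have h2 : wdg ((z.red (plV V)).y q) ((z.red (plV V)).y q') = 0 :=
      (dl_red_eq_zero (p := LP.at V) hz hP).2 h1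
    rw [trm_eq, dgc, if_pos h2, sub_zero]
    simp only [mul_ap, Sym65.pv, tF, zero_ap, LP.at_toPl]
    ring

open Classical in
/-- the second filtration: the glued configurations -/
theorem Nd.right : (sm (dh (z.y q) (z.y q')) fun V =>
    if (z.dv T).val V = 1 then
      sm ((plV V).res (z.dv T)) (i2 (qv (pF B z q q') (cf B (dh (z.y q) (z.y q'))) *
        qv (jF B T z q q') (cf B (z.dv T)) * evF z m Φ) V)
    else i1 (qv (pF B z q q') (cf B (dh (z.y q) (z.y q'))) * Sym65.pv (jF B T z q q') 0 *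
      evF z m Φ) V) = ∑ᶠ (V : RZ ℂ K) (_ : Dvs V), od V (dh (z.y q) (z.y q')) *
        ful B T (jn (z.red (plV V)) q q') m Φ (om B (z.y q) (z.y q') V) := by
  have hz := h.rk.nz
  refine Vb.sm_congr (a := dh (z.y q) (z.y q')) fun V hV hH => ?_
  have := essFT_Rf hV
  have h0 : (jn (z.red (plV V)) q q').On T ↔ (z.dv T).val V ≠ 1 :=
    Cfg.on_red_iff T (lnr_plV V) hz hO
  rw [ful]
  split_ifs with h1 h2 h2
  · exact absurd h1 (h0.1 h2)
  · have h3 : (jn (z.red (plV V)) q q').dv T = (plV V).res (z.dv T) :=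
      Cfg.dv_red T (lnr_plV V) hz h2
    rw [← h3]
    refine Vb.sm_congr (a := (jn (z.red (plV V)) q q').dv T) fun W hW hD => ?_
    have := essFT_Rf hW
    rw [i2]
    congr 1
    have h4 : ((z.red (plV V)).red (plV W)).On T :=
      on_at (z := jn (z.red (plV V)) q q') (hz.red _) hD
    have h5 := Cfg.red_comp (LP.at V) (LP.at W) hz
    have h6 := ((livX_pF hB hz q q').qv (Liv.cf hB (dh (z.y q) (z.y q')))).nat _ _ (LP.at V)
      (LP.at W) hH
    have h7 : jF B T z q q' _ ((LP.at V).comp (LP.at W)) =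
        cpz B T ((jn (z.red (plV V)) q q').red (plV W)) := by
      obtain ⟨N, hN⟩ := exists_bd T
      rw [show (jn (z.red (plV V)) q q').red (plV W) = _ from
        h.jn_red (p := LP.at V) hH (LP.at W)]
      exact (cpz_geqN hB hN (jn_geqN (h5.geqN N)) (hz.red _)).symm
    have h8 : cf B (z.dv T) _ ((LP.at V).comp (LP.at W)) =
        B.pb (LP.at W) (B.c1 ((jn (z.red (plV V)) q q').dv T)) := by
      rw [h3, cf, hB.pb_comp, hB.pb_c1_res (LP.at V) h1]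
      rfl
    have h9 : evF z m Φ _ ((LP.at V).comp (LP.at W)) =
        Φ _ fun x => ((jn (z.red (plV V)) q q').red (plV W)).y (m x) :=
      (hΦ.geq h5 (hz.red _) ((h5.on T).1 h4)).symm
    rw [mul_ap, mul_ap, h6, h9, qv, qv, h7, h8, mul_assoc]
    rfl
  · rw [i1, ← mul_assoc]
    rfl
  · exact absurd (h0.2 h1) h2

/-- **NODE** for a family with the rank conditions -/
theorem Nd.node (hT : TwoStmt) : vrd B T z m Φ q q' =
    ∑ᶠ (V : RZ ℂ K) (_ : Dvs V), od V (dh (z.y q) (z.y q')) *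
      ful B T (jn (z.red (plV V)) q q') m Φ (om B (z.y q) (z.y q') V) := by
  have hz := h.rk.nz
  have hD := Cfg.dv_nonneg T hz
  have hH := dh_nonneg (z.y q) (z.y q')
  have s1 : Sup (z.dv T ⊓ dh (z.y q) (z.y q')) ⊆ Zon T z := fun V hV =>
    sup_sub hz (sup_inf hD hH ▸ hV).1
  have s2 : Sup (z.dv T ⊓ dh (z.y q) (z.y q')) ⊆ Sup (dh (z.y q) (z.y q')) := fun V hV =>
    (sup_inf hD hH ▸ hV).2
  have t1 := hT B hB _ _ _ _ _ hD hH ((h.rk.livX hB).mono s1) ((livX_tF hB hR hz q).mono s1)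
    ((liv_evF hΦ hz m).mono s1)
    (fun _ _ _ _ p hp => h.rk.root hB hO ((mem_Zon hz).1 (s1 hp)))
    fun _ _ _ _ p hp hlt => h.root_tF hB hO hp hlt
  rw [inf_comm] at s1 s2
  have t2 := hT B hB _ _ _ _ _ hH hD ((livX_pF hB hz q q').mono s2)
    ((h.livX hB hR).mono (Set.subset_inter s1 s2)) ((liv_evF hΦ hz m).mono s1)
    (fun _ _ _ _ p hp => root_pF hB hz (s2 hp)) fun _ _ _ _ p hp hlt => h.root_jF hB hp hlt
  rw [h.left hB hR hΦ hO hP, ← t1, ← h.right hB hR hΦ hO hP, ← t2, inf_comm]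
  refine Vb.sm_congr fun V hV hG => ?_
  have := essFT_Rf hV
  simp only [i1, mul_ap, mul_apX, qv]
  rw [h.mul hB hR (p := LP.at V) (s1 hG) (s2 hG)]

end Abs

theorem exists_mh {y : Pnt io E} (h : NZ y) (κ : J → ℕ) : ∃ F, MH F κ ∧ pv y F ≠ 0 := by
  choose i hi using h
  refine ⟨∏ j, MvPolynomial.X ⟨j, i j⟩ ^ κ j, ?_, ?_⟩
  · have := MvPolynomial.IsWeightedHomogeneous.prod (R := ℂ) Finset.univ
      (fun j => MvPolynomial.X (⟨j, i j⟩ : Vr io) ^ κ j) (fun j => κ j • (Pi.single j 1 : J → ℕ))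
      (w := fun v : Vr io => (Pi.single v.1 1 : J → ℕ)) fun j _ =>
      (MvPolynomial.isWeightedHomogeneous_X ℂ _ _).pow _
    rwa [show ∑ j, κ j • (Pi.single j 1 : J → ℕ) = κ from
      funext fun j => by simp [Finset.sum_apply, Pi.single_apply]] at this
  · simp only [pv, map_prod, map_pow, MvPolynomial.aeval_X]
    exact Finset.prod_ne_zero_iff.2 fun j _ => pow_ne_zero _ (hi j)

theorem exists_ne_red {d : J → ℕ} (ξ : Dat io d I K) (p : LP K E) (κ : J → ℕ) (q : I) :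
    ∃ σ ∈ (ξ.cfg.red p.toPl).V κ, σ q ≠ 0 := by
  obtain ⟨F, hF, h⟩ := exists_mh ((Tree87.nz_cfg ξ).red p.toPl q) κ
  have h1 := fun x j => (Cfg.pr_nrm (Tree87.nz_cfg ξ) p.V x j).1
  refine ⟨_, mem_redS (Tree87.pv_mem_gau hF (Tree87.pv_mem_cfg ξ hF) (ξ.cfg.nrm p.V))
    fun x => pv_mem (h1 x) F, ?_⟩
  exact (r_pv p.lnr (h1 q) F).trans_ne h

/-- a pair of normed data satisfies the rank conditions -/
theorem exists_nd (hS : Smo T c) (d₁ d₂ : J → ℕ) : ∃ N : ℕ, ∀ {I₁ I₂ L : Type} [Fintype I₁]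
    [Fintype I₂] [Field L] [Algebra ℂ L] (η₁ : Dat io d₁ I₁ L) (η₂ : Dat io d₂ I₂ L) (q₁ : I₁)
    (q₂ : I₂), η₁.NrmUp N → η₂.NrmUp N → Nd T (pair η₁.cfg η₂.cfg) (.inl q₁) (.inr q₂) := by
  obtain ⟨N₁, h₁⟩ := rk_of Tree87.rankStmt (hS.good d₁)
  obtain ⟨N₂, h₂⟩ := rk_of Tree87.rankStmt (hS.good d₂)
  obtain ⟨-, S, hG⟩ := hS.good d₁
  obtain ⟨N₃, h₃⟩ := Tree87.exists_big S
  refine ⟨max N₁ (max N₂ N₃), fun η₁ η₂ q₁ q₂ n₁ n₂ => ⟨rk_pair
    (h₁ η₁ (Tree87.nz_cfg _) fun κ hκ => n₁ κ fun j => (hκ j).trans (le_max_left _ _))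
    (h₂ η₂ (Tree87.nz_cfg _) fun κ hκ => n₂ κ fun j =>
      (hκ j).trans ((le_max_left _ _).trans (le_max_right _ _))), fun p hO => ?_, fun p κ => ?_⟩⟩
  · rw [pair_red] at hO ⊢
    refine ev_pair q₂ fun n hn => ?_
    obtain ⟨σ, h1, h2⟩ := (Bub96.tl_red n₁ p.toPl).ev hG
      (h₃ _ ((le_max_right _ _).trans (le_max_right _ _))) (on_pair.1 hO).1 q₁ hn
    exact ⟨σ, h1, funext h2⟩
  · rw [pair_red]
    obtain ⟨σ, h1, h2⟩ := exists_ne_red η₁ p κ q₁
    exact ⟨Sum.elim σ 0, mem_pair.2 ⟨h1, zero_mem _⟩, h2, rfl⟩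

/-- **NODE** -/
theorem nodeStmt_of (hT : TwoStmt) : NodeStmt := by
  intro B hB J _ _ io _ _ A _ T c hS d₁ d₂
  obtain ⟨N, hN⟩ := exists_nd hS d₁ d₂
  exact ⟨N, fun η₁ η₂ q₁ q₂ m Φ hΦ n₁ n₂ hO hP =>
    (hN η₁ η₂ q₁ q₂ n₁ n₂).node hB (rg_of_smo hS) hΦ hO hP hT⟩

end Crest.Agent.X262.Node22
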